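import Vale.Agent.P322V.Defs

namespace Vale.Agent.P322V

open Real

/-- `β(x) = LL(ath(ρx)) / LL(ath x)`. -/
noncomputable def betaX (ρ x : ℝ) : ℝ :=
  (Real.log 2 - (1 / 2) * Real.log (1 - (ρ * x) ^ 2)) / (Real.log 2 - (1 / 2) * Real.log (1 - x ^ 2))

/-- `α(x) = β(x) ath x - ρ ath(ρx)`. -/
noncomputable def alphaX (ρ x : ℝ) : ℝ := betaX ρ x * ath x - ρ * ath (ρ * x)

lemma NN_pos {w : ℝ} (h0 : 0 ≤ w) (h1 : w < 1) : 0 < Real.log 2 - (1 / 2) * Real.log (1 - w) := by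
  have h2 : Real.log (1 - w) ≤ 0 := Real.log_nonpos (by linarith) (by linarith)
  have h3 : 0 < Real.log 2 := Real.log_pos one_lt_two
  linarith

lemma sq_lt_one_of {x : ℝ} (hx0 : 0 < x) (hx1 : x < 1) : x ^ 2 < 1 := by nlinarith

lemma mul_sq_lt_one_of {ρ x : ℝ} (hρ0 : 0 < ρ) (hρ1 : ρ < 1) (hx0 : 0 < x) (hx1 : x < 1) :
    (ρ * x) ^ 2 < 1 :=
  sq_lt_one_of (mul_pos hρ0 hx0) (by nlinarith)

lemma mul_sq_le_sq {ρ x : ℝ} (hρ0 : 0 < ρ) (hρ1 : ρ < 1) (hx0 : 0 < x) : (ρ * x) ^ 2 ≤ x ^ 2 := by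
  have : ρ * x ≤ x := by nlinarith
  have h2 : 0 ≤ ρ * x := by positivity
  nlinarith

lemma betaX_pos {ρ x : ℝ} (hρ0 : 0 < ρ) (hρ1 : ρ < 1) (hx0 : 0 < x) (hx1 : x < 1) :
    0 < betaX ρ x :=
  div_pos (NN_pos (by positivity) (mul_sq_lt_one_of hρ0 hρ1 hx0 hx1))
    (NN_pos (by positivity) (sq_lt_one_of hx0 hx1))

lemma betaX_le_one {ρ x : ℝ} (hρ0 : 0 < ρ) (hρ1 : ρ < 1) (hx0 : 0 < x) (hx1 : x < 1) :
    betaX ρ x ≤ 1 := by
  have hb := sq_lt_one_of hx0 hx1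
  have hle := mul_sq_le_sq hρ0 hρ1 hx0
  rw [betaX, div_le_one (NN_pos (by positivity) hb)]
  have : Real.log (1 - x ^ 2) ≤ Real.log (1 - (ρ * x) ^ 2) :=
    Real.log_le_log (by linarith) (by linarith)
  linarith

/-- `α x = ψ(ρx) - β ψ(x)`. -/
lemma alphaX_mul {ρ x : ℝ} (hρ0 : 0 < ρ) (hρ1 : ρ < 1) (hx0 : 0 < x) (hx1 : x < 1) :
    alphaX ρ x * x = psi (ρ * x) - betaX ρ x * psi x := by
  have hb := sq_lt_one_of hx0 hx1
  have hN := NN_pos (by positivity) hb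
  have hax : |x| < 1 := by rw [abs_of_pos hx0]; exact hx1
  have hay : |ρ * x| < 1 := by
    rw [abs_of_pos (mul_pos hρ0 hx0)]; nlinarith
  have h1 := psi_eq_LL hax
  have h2 := psi_eq_LL hay
  rw [LL_ath hax] at h1
  rw [LL_ath hay] at h2
  have hβ : betaX ρ x * (Real.log 2 - (1 / 2) * Real.log (1 - x ^ 2))
      = Real.log 2 - (1 / 2) * Real.log (1 - (ρ * x) ^ 2) := by
    rw [betaX]; exact div_mul_cancel₀ _ hN.ne'
  rw [h1, h2, alphaX, mul_sub, hβ]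
  ring

lemma alphaX_nonneg {ρ x : ℝ} (hρ0 : 0 < ρ) (hρ1 : ρ < 1) (hx0 : 0 < x) (hx1 : x < 1) :
    0 ≤ alphaX ρ x := by
  have h := alphaX_mul hρ0 hρ1 hx0 hx1
  have h1 : psi x ≤ psi (ρ * x) := psi_anti (by positivity) (by nlinarith) hx1.le
  have h2 : 0 ≤ psi x := psi_nonneg (by rw [abs_of_pos hx0]; exact hx1.le)
  have h3 := betaX_le_one hρ0 hρ1 hx0 hx1
  have h4 : betaX ρ x * psi x ≤ 1 * psi x := mul_le_mul_of_nonneg_right h3 h2
  have h5 : 0 ≤ alphaX ρ x * x := by rw [h]; linarith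
  exact nonneg_of_mul_nonneg_left h5 hx0

/-- `β (1 - ρ²x²) ≥ ρ² (1 - x²)`. -/
lemma PP_at_x {ρ x : ℝ} (hρ0 : 0 < ρ) (hρ1 : ρ < 1) (hx0 : 0 < x) (hx1 : x < 1) :
    ρ ^ 2 * (1 - x ^ 2) ≤ betaX ρ x * (1 - (ρ * x) ^ 2) := by
  have hb := sq_lt_one_of hx0 hx1
  have ha := mul_sq_lt_one_of hρ0 hρ1 hx0 hx1
  have hle := mul_sq_le_sq hρ0 hρ1 hx0
  set A := 1 - (ρ * x) ^ 2 with hA
  set B := 1 - x ^ 2 with hB
  have hA0 : 0 < A := by linarith
  have hB0 : 0 < B := by linarith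
  set l := ρ ^ 2 * B / A with hl
  have hl0 : 0 ≤ l := by positivity
  have hl1 : l ≤ 1 := by
    rw [hl, div_le_one hA0, hA, hB]
    have : (ρ * x) ^ 2 = ρ ^ 2 * x ^ 2 := by ring
    rw [this]
    nlinarith [sq_nonneg ρ, sq_nonneg x]
  -- concavity of log
  have hconc := (strictConcaveOn_log_Ioi).concaveOn.2
    (show 1 / B ∈ Set.Ioi (0 : ℝ) from by simp only [Set.mem_Ioi]; positivity)
    (show (1 : ℝ) ∈ Set.Ioi (0 : ℝ) from by simp)
    hl0 (by linarith : 0 ≤ 1 - l) (by ring)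
  simp only [smul_eq_mul, Real.log_one, mul_zero, add_zero, mul_one] at hconc
  have e1 : l * (1 / B) + (1 - l) = 1 / A := by
    have e2 : (ρ * x) ^ 2 = 1 - A := by rw [hA]; ring
    have e3 : x ^ 2 = 1 - B := by rw [hB]; ring
    have e4 : ρ ^ 2 * (1 - B) = 1 - A := by rw [← e3, ← e2]; ring
    rw [hl]
    field_simp
    linarith
  rw [e1, Real.log_div one_ne_zero hA0.ne', Real.log_div one_ne_zero hB0.ne', Real.log_one] at hconc
  have hNb := NN_pos (by positivity) hb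
  have hlog2 : 0 < Real.log 2 := Real.log_pos one_lt_two
  rw [← hB] at hNb
  have hNa : l * (Real.log 2 - (1 / 2) * Real.log B) ≤ Real.log 2 - (1 / 2) * Real.log A := by
    have : l * Real.log 2 ≤ 1 * Real.log 2 := mul_le_mul_of_nonneg_right hl1 hlog2.le
    nlinarith
  have hβ : l ≤ betaX ρ x := by
    rw [betaX, ← hA, ← hB, le_div_iff₀ hNb]
    exact hNa
  have h6 : l * A = ρ ^ 2 * B := by rw [hl]; field_simp
  rw [← h6]
  exact mul_le_mul_of_nonneg_right hβ hA0.le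

/-- The derivative `E'` of the certificate gap. -/
noncomputable def GG (ρ x s : ℝ) : ℝ := betaX ρ x * ath s - ρ * ath (ρ * s) - alphaX ρ x

/-- Numerator of `E''`. -/
noncomputable def PP (ρ x s : ℝ) : ℝ := betaX ρ x * (1 - (ρ * s) ^ 2) - ρ ^ 2 * (1 - s ^ 2)

lemma PP_mono {ρ x s s' : ℝ} (hβ1 : betaX ρ x ≤ 1) (hs : 0 ≤ s) (hss : s ≤ s') :
    PP ρ x s ≤ PP ρ x s' := by
  unfold PP
  have h1 : s ^ 2 ≤ s' ^ 2 := by nlinarith
  have h2 : 0 ≤ ρ ^ 2 * (1 - betaX ρ x) * (s' ^ 2 - s ^ 2) :=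
    mul_nonneg (mul_nonneg (sq_nonneg _) (by linarith)) (by linarith)
  nlinarith

lemma abs_mul_lt_one {ρ s : ℝ} (hρ0 : 0 < ρ) (hρ1 : ρ < 1) (hs : |s| < 1) : |ρ * s| < 1 := by
  rw [abs_mul, abs_of_pos hρ0]
  nlinarith [abs_nonneg s]

lemma hasDerivAt_GG {ρ x s : ℝ} (hρ0 : 0 < ρ) (hρ1 : ρ < 1) (hs : |s| < 1) :
    HasDerivAt (GG ρ x) (PP ρ x s / ((1 - s ^ 2) * (1 - (ρ * s) ^ 2))) s := by
  have hs2 : 0 < 1 - s ^ 2 := by
    have := sq_lt_one_iff_abs_lt_one s |>.mpr hs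
    linarith
  have hs3 : 0 < 1 - (ρ * s) ^ 2 := by
    have := sq_lt_one_iff_abs_lt_one (ρ * s) |>.mpr (abs_mul_lt_one hρ0 hρ1 hs)
    linarith
  have h1 := hasDerivAt_ath hs
  have h2 := hasDerivAt_ath (abs_mul_lt_one hρ0 hρ1 hs)
  have hin : HasDerivAt (fun s => ρ * s) ρ s := by
    simpa using (hasDerivAt_id s).const_mul ρ
  have h3 : HasDerivAt (fun s => ath (ρ * s)) (1 / (1 - (ρ * s) ^ 2) * ρ) s := h2.comp s hin
  have h4 := ((h1.const_mul (betaX ρ x)).sub (h3.const_mul ρ)).sub_const (alphaX ρ x)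
  have e : betaX ρ x * (1 / (1 - s ^ 2)) - ρ * (1 / (1 - (ρ * s) ^ 2) * ρ)
      = PP ρ x s / ((1 - s ^ 2) * (1 - (ρ * s) ^ 2)) := by
    unfold PP
    have key : ∀ A C β : ℝ, A ≠ 0 → C ≠ 0 →
        β * (1 / A) - ρ * (1 / C * ρ) = (β * C - ρ ^ 2 * A) / (A * C) := by
      intro A C β hA hC
      field_simp
    exact key _ _ _ hs2.ne' hs3.ne'
  rw [e] at h4
  exact h4

lemma GG_mono {ρ x a b : ℝ} (hρ0 : 0 < ρ) (hρ1 : ρ < 1) (ha : -1 < a) (hab : a ≤ b) (hb : b < 1)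
    (hP : ∀ s ∈ Set.Icc a b, 0 ≤ PP ρ x s) : GG ρ x a ≤ GG ρ x b := by
  have hin : ∀ s ∈ Set.Icc a b, |s| < 1 := fun s hs => abs_lt.mpr ⟨by linarith [hs.1], by linarith [hs.2]⟩
  have hmono : MonotoneOn (GG ρ x) (Set.Icc a b) := by
    apply monotoneOn_of_deriv_nonneg (convex_Icc a b)
    · exact fun s hs => (hasDerivAt_GG hρ0 hρ1 (hin s hs)).continuousAt.continuousWithinAt
    · intro s hs
      rw [interior_Icc] at hs
      exact (hasDerivAt_GG hρ0 hρ1 (hin s ⟨hs.1.le, hs.2.le⟩)).differentiableAt.differentiableWithinAt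
    · intro s hs
      rw [interior_Icc] at hs
      have hs' : s ∈ Set.Icc a b := ⟨hs.1.le, hs.2.le⟩
      have habs := hin s hs'
      rw [(hasDerivAt_GG hρ0 hρ1 habs).deriv]
      have hs2 : 0 < 1 - s ^ 2 := by
        have := sq_lt_one_iff_abs_lt_one s |>.mpr habs
        linarith
      have hs3 : 0 < 1 - (ρ * s) ^ 2 := by
        have := sq_lt_one_iff_abs_lt_one (ρ * s) |>.mpr (abs_mul_lt_one hρ0 hρ1 habs)
        linarith
      exact div_nonneg (hP s hs') (by positivity)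
  exact hmono (Set.left_mem_Icc.mpr hab) (Set.right_mem_Icc.mpr hab) hab

lemma GG_anti {ρ x a b : ℝ} (hρ0 : 0 < ρ) (hρ1 : ρ < 1) (ha : -1 < a) (hab : a ≤ b) (hb : b < 1)
    (hP : ∀ s ∈ Set.Icc a b, PP ρ x s ≤ 0) : GG ρ x b ≤ GG ρ x a := by
  have hin : ∀ s ∈ Set.Icc a b, |s| < 1 := fun s hs => abs_lt.mpr ⟨by linarith [hs.1], by linarith [hs.2]⟩
  have hanti : AntitoneOn (GG ρ x) (Set.Icc a b) := by
    apply antitoneOn_of_deriv_nonpos (convex_Icc a b)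
    · exact fun s hs => (hasDerivAt_GG hρ0 hρ1 (hin s hs)).continuousAt.continuousWithinAt
    · intro s hs
      rw [interior_Icc] at hs
      exact (hasDerivAt_GG hρ0 hρ1 (hin s ⟨hs.1.le, hs.2.le⟩)).differentiableAt.differentiableWithinAt
    · intro s hs
      rw [interior_Icc] at hs
      have hs' : s ∈ Set.Icc a b := ⟨hs.1.le, hs.2.le⟩
      have habs := hin s hs'
      rw [(hasDerivAt_GG hρ0 hρ1 habs).deriv]
      have hs2 : 0 < 1 - s ^ 2 := by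
        have := sq_lt_one_iff_abs_lt_one s |>.mpr habs
        linarith
      have hs3 : 0 < 1 - (ρ * s) ^ 2 := by
        have := sq_lt_one_iff_abs_lt_one (ρ * s) |>.mpr (abs_mul_lt_one hρ0 hρ1 habs)
        linarith
      exact div_nonpos_of_nonpos_of_nonneg (hP s hs') (by positivity)
  exact hanti (Set.left_mem_Icc.mpr hab) (Set.right_mem_Icc.mpr hab) hab

/-- The certificate gap `E(s) = ψ(ρ s) - α s - β ψ(s)`. -/
noncomputable def EE (ρ x s : ℝ) : ℝ := psi (ρ * s) - alphaX ρ x * s - betaX ρ x * psi s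

lemma hasDerivAt_EE {ρ x s : ℝ} (hρ0 : 0 < ρ) (hρ1 : ρ < 1) (hs : |s| < 1) :
    HasDerivAt (EE ρ x) (GG ρ x s) s := by
  have h1 := hasDerivAt_psi hs
  have h2 := hasDerivAt_psi (abs_mul_lt_one hρ0 hρ1 hs)
  have hin : HasDerivAt (fun s => ρ * s) ρ s := by
    simpa using (hasDerivAt_id s).const_mul ρ
  have h3 : HasDerivAt (fun s => psi (ρ * s)) (-(ath (ρ * s)) * ρ) s := h2.comp s hin
  have hlin : HasDerivAt (fun s => alphaX ρ x * s) (alphaX ρ x) s := by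
    simpa using (hasDerivAt_id s).const_mul (alphaX ρ x)
  have h4 := (h3.sub hlin).sub (h1.const_mul (betaX ρ x))
  have e : -(ath (ρ * s)) * ρ - alphaX ρ x - betaX ρ x * -(ath s) = GG ρ x s := by
    unfold GG; ring
  rw [e] at h4
  exact h4

lemma continuous_EE (ρ x : ℝ) : Continuous (EE ρ x) := by
  unfold EE
  have h1 : Continuous fun s : ℝ => psi (ρ * s) := continuous_psi.comp (continuous_const.mul continuous_id)
  exact (h1.sub (continuous_const.mul continuous_id)).sub (continuous_const.mul continuous_psi)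

lemma EE_x {ρ x : ℝ} (hρ0 : 0 < ρ) (hρ1 : ρ < 1) (hx0 : 0 < x) (hx1 : x < 1) : EE ρ x x = 0 := by
  have := alphaX_mul hρ0 hρ1 hx0 hx1
  unfold EE
  rw [this]; ring

lemma GG_x (ρ x : ℝ) : GG ρ x x = 0 := by
  unfold GG alphaX; ring

lemma ath_zero : ath 0 = 0 := by
  unfold ath; simp

/-- The tangent certificate on `[0,1]`. -/
lemma EE_nonneg {ρ x s : ℝ} (hρ0 : 0 < ρ) (hρ1 : ρ < 1) (hx0 : 0 < x) (hx1 : x < 1)
    (hs0 : 0 ≤ s) (hs1 : s ≤ 1) : 0 ≤ EE ρ x s := by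
  have hβ1 := betaX_le_one hρ0 hρ1 hx0 hx1
  have hPx : 0 ≤ PP ρ x x := by
    have := PP_at_x hρ0 hρ1 hx0 hx1
    unfold PP; linarith
  have hE0 := EE_x hρ0 hρ1 hx0 hx1
  rcases le_total x s with hxs | hsx
  · -- `s ≥ x`: `E` is monotone on `[x,1]`
    have hmono : MonotoneOn (EE ρ x) (Set.Icc x 1) := by
      apply monotoneOn_of_deriv_nonneg (convex_Icc x 1)
      · exact (continuous_EE ρ x).continuousOn
      · intro t ht
        rw [interior_Icc] at ht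
        have habs : |t| < 1 := abs_lt.mpr ⟨by linarith [ht.1], ht.2⟩
        exact (hasDerivAt_EE hρ0 hρ1 habs).differentiableAt.differentiableWithinAt
      · intro t ht
        rw [interior_Icc] at ht
        have habs : |t| < 1 := abs_lt.mpr ⟨by linarith [ht.1], ht.2⟩
        rw [(hasDerivAt_EE hρ0 hρ1 habs).deriv]
        have h := GG_mono (ρ := ρ) (x := x) (a := x) (b := t) hρ0 hρ1 (by linarith) ht.1.le ht.2
          (fun u hu => le_trans hPx (PP_mono hβ1 hx0.le hu.1))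
        rwa [GG_x] at h
    have h := hmono (Set.left_mem_Icc.mpr hx1.le) ⟨hxs, hs1⟩ hxs
    linarith
  · -- `s ≤ x`: `E` is antitone on `[0,x]`
    have hanti : AntitoneOn (EE ρ x) (Set.Icc 0 x) := by
      apply antitoneOn_of_deriv_nonpos (convex_Icc 0 x)
      · exact (continuous_EE ρ x).continuousOn
      · intro t ht
        rw [interior_Icc] at ht
        have habs : |t| < 1 := abs_lt.mpr ⟨by linarith [ht.1], by linarith [ht.2]⟩
        exact (hasDerivAt_EE hρ0 hρ1 habs).differentiableAt.differentiableWithinAt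
      · intro t ht
        rw [interior_Icc] at ht
        have habs : |t| < 1 := abs_lt.mpr ⟨by linarith [ht.1], by linarith [ht.2]⟩
        rw [(hasDerivAt_EE hρ0 hρ1 habs).deriv]
        rcases le_or_gt 0 (PP ρ x t) with hP | hP
        · have h := GG_mono (ρ := ρ) (x := x) (a := t) (b := x) hρ0 hρ1 (by linarith [ht.1]) ht.2.le hx1
            (fun u hu => le_trans hP (PP_mono hβ1 ht.1.le hu.1))
          rwa [GG_x] at h
        · have h := GG_anti (ρ := ρ) (x := x) (a := 0) (b := t) hρ0 hρ1 (by norm_num) ht.1.le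
            (by linarith [ht.2])
            (fun u hu => le_trans (PP_mono hβ1 hu.1 hu.2) hP.le)
          have h0 : GG ρ x 0 = -alphaX ρ x := by
            unfold GG
            rw [mul_zero, ath_zero]; ring
          rw [h0] at h
          linarith [alphaX_nonneg hρ0 hρ1 hx0 hx1]
    have h := hanti ⟨hs0, hsx⟩ (Set.right_mem_Icc.mpr hx0.le) hsx
    linarith

/-- **Tangent certificate**. -/
theorem tangent_cert {ρ x : ℝ} (hρ0 : 0 < ρ) (hρ1 : ρ < 1) (hx0 : 0 < x) (hx1 : x < 1)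
    (s : ℝ) (hs : |s| ≤ 1) :
    alphaX ρ x * s + betaX ρ x * psi s ≤ psi (ρ * s) := by
  rcases le_total 0 s with h0 | h0
  · have h := EE_nonneg hρ0 hρ1 hx0 hx1 h0 (by rwa [abs_of_nonneg h0] at hs)
    unfold EE at h
    linarith
  · have hs' : -s ≤ 1 := by rwa [abs_of_nonpos h0] at hs
    have h := EE_nonneg hρ0 hρ1 hx0 hx1 (by linarith : 0 ≤ -s) hs'
    unfold EE at h
    have e : ρ * -s = -(ρ * s) := by ring
    rw [e, psi_neg, psi_neg] at h
    have hα := alphaX_nonneg hρ0 hρ1 hx0 hx1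
    have : alphaX ρ x * s ≤ 0 := mul_nonpos_of_nonneg_of_nonpos hα h0
    nlinarith

end Vale.Agent.P322V
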