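import Vale.Agent.P322.Semi

namespace Vale.Agent.P322V

open Finset
open Vale.Agent.P322

variable {n : ℕ}

/-- Splitting the average at a coordinate. -/
lemma avg_split_coord (G : (Fin (n + 1) → Bool) → ℝ) (i : Fin (n + 1)) :
    avg G = (avg (fun w => G (i.insertNth true w)) + avg (fun w => G (i.insertNth false w))) / 2 := by
  have h : ∑ x, G x = ∑ w, G (i.insertNth true w) + ∑ w, G (i.insertNth false w) := by
    rw [← (Fin.insertNthEquiv (fun _ => Bool) i).sum_comp G, Fintype.sum_prod_type,
      Fintype.sum_bool]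
    rfl
  unfold avg
  rw [h, pow_succ]
  field_simp

/-- The degree one Fourier coefficient. -/
noncomputable def coef (F : (Fin n → Bool) → ℝ) (i : Fin n) : ℝ :=
  avg (fun x => F x * sg (x i))

lemma coef_eq (F : (Fin (n + 1) → Bool) → ℝ) (i : Fin (n + 1)) :
    (avg (fun w => F (i.insertNth true w)) - avg (fun w => F (i.insertNth false w))) / 2
      = coef F i := by
  unfold coef
  rw [avg_split_coord _ i]
  have h1 : (fun w => F (i.insertNth true w) * sg ((i.insertNth true w : Fin (n + 1) → Bool) i))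
      = fun w => F (i.insertNth true w) := by
    funext w; simp
  have h2 : (fun w => F (i.insertNth false w) * sg ((i.insertNth false w : Fin (n + 1) → Bool) i))
      = fun w => - F (i.insertNth false w) := by
    funext w; simp
  rw [h1, h2]
  unfold avg
  rw [Finset.sum_neg_distrib]
  ring

lemma avg_sg_mul_sg (i j : Fin n) :
    avg (fun x : Fin n → Bool => sg (x i) * sg (x j)) = if i = j then 1 else 0 := by
  by_cases hij : i = j
  · subst hij
    simp only [if_true]
    have : (fun x : Fin n → Bool => sg (x i) * sg (x i)) = fun _ => (1 : ℝ) := by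
      funext x; cases x i <;> simp
    rw [this, avg_const]
  · rw [if_neg hij]
    obtain ⟨m, rfl⟩ : ∃ m, n = m + 1 := ⟨n - 1, by have := i.pos; omega⟩
    obtain ⟨k, rfl⟩ := Fin.exists_succAbove_eq (x := j) (y := i) (Ne.symm hij)
    rw [avg_split_coord _ i]
    have h1 : (fun w => sg ((i.insertNth true w : Fin (m + 1) → Bool) i)
        * sg ((i.insertNth true w : Fin (m + 1) → Bool) (i.succAbove k)))
        = fun w : Fin m → Bool => sg (w k) := by
      funext w; simp
    have h2 : (fun w => sg ((i.insertNth false w : Fin (m + 1) → Bool) i)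
        * sg ((i.insertNth false w : Fin (m + 1) → Bool) (i.succAbove k)))
        = fun w : Fin m → Bool => - sg (w k) := by
      funext w; simp
    rw [h1, h2]
    unfold avg
    rw [Finset.sum_neg_distrib]
    ring

lemma avg_finsetSum {ι : Type*} (s : Finset ι) (g : ι → (Fin n → Bool) → ℝ) :
    avg (fun x => ∑ i ∈ s, g i x) = ∑ i ∈ s, avg (g i) := by
  unfold avg
  rw [Finset.sum_comm, Finset.sum_div]

/-- Bessel's inequality for the first level. -/
lemma bessel (F : (Fin n → Bool) → ℝ) :
    ∑ i, coef F i ^ 2 ≤ avg (fun x => F x ^ 2) := by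
  set g : (Fin n → Bool) → ℝ := fun x => ∑ i, coef F i * sg (x i) with hg
  have h1 : avg (fun x => F x * g x) = ∑ i, coef F i ^ 2 := by
    have : (fun x => F x * g x) = fun x => ∑ i, coef F i * (F x * sg (x i)) := by
      funext x
      rw [hg]
      simp only
      rw [Finset.mul_sum]
      exact Finset.sum_congr rfl (fun i _ => by ring)
    rw [this, avg_finsetSum]
    refine Finset.sum_congr rfl (fun i _ => ?_)
    rw [avg_mul_left]
    unfold coef
    ring
  have h2 : avg (fun x => g x * g x) = ∑ i, coef F i ^ 2 := by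
    have : (fun x => g x * g x)
        = fun x => ∑ i, ∑ j, coef F i * coef F j * (sg (x i) * sg (x j)) := by
      funext x
      rw [hg]
      simp only
      rw [Finset.sum_mul_sum]
      refine Finset.sum_congr rfl (fun i _ => Finset.sum_congr rfl (fun j _ => by ring))
    rw [this, avg_finsetSum]
    refine Finset.sum_congr rfl (fun i _ => ?_)
    rw [avg_finsetSum, Finset.sum_eq_single i]
    · rw [avg_mul_left, avg_sg_mul_sg, if_pos rfl]; ring
    · intro j _ hj
      rw [avg_mul_left, avg_sg_mul_sg, if_neg (Ne.symm hj)]; ring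
    · simp
  have h3 : 0 ≤ avg (fun x => (F x - g x) ^ 2) :=
    by
      have := avg_le_avg (g := fun _ : Fin n → Bool => (0:ℝ)) (h := fun x => (F x - g x) ^ 2) (fun x => sq_nonneg _)
      rwa [avg_const] at this
  have h4 : (fun x => (F x - g x) ^ 2)
      = fun x => (F x ^ 2 - 2 * (F x * g x)) + g x * g x := by
    funext x; ring
  rw [h4, avg_add, avg_sub, avg_mul_left, h1, h2] at h3
  linarith

lemma avg_sq_eq_one (F : (Fin n → Bool) → ℝ) (hF : ∀ x, F x = 1 ∨ F x = -1) :
    avg (fun x => F x ^ 2) = 1 := by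
  have : (fun x => F x ^ 2) = fun _ => (1 : ℝ) := by
    funext x
    rcases hF x with h | h <;> rw [h] <;> norm_num
  rw [this, avg_const]

/-- `2 ^ n * coef F i` is an integer. -/
lemma coef_int (F : (Fin n → Bool) → ℝ) (hF : ∀ x, F x = 1 ∨ F x = -1) (i : Fin n) :
    ∃ S : ℤ, coef F i = (S : ℝ) / 2 ^ n := by
  have hS : ∀ x : Fin n → Bool, ∃ z : ℤ, F x * sg (x i) = (z : ℝ) := by
    intro x
    rcases hF x with h | h <;> cases x i <;> rw [h]
    · exact ⟨-1, by simp⟩
    · exact ⟨1, by simp⟩
    · exact ⟨1, by simp⟩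
    · exact ⟨-1, by simp⟩
  choose z hz using hS
  refine ⟨∑ x, z x, ?_⟩
  unfold coef avg
  rw [Int.cast_sum]
  congr 1
  exact Finset.sum_congr rfl (fun x _ => hz x)

/-- Some coordinate has small Fourier coefficient: `|f^(i)| ≤ 1/2` once there are at least
two coordinates. -/
theorem exists_coord {n : ℕ} (F : (Fin (n + 2) → Bool) → ℝ) (hF : ∀ x, F x = 1 ∨ F x = -1) :
    ∃ i : Fin (n + 2),
      |avg (fun w : Fin (n + 1) → Bool => F (i.insertNth true w))
        - avg (fun w : Fin (n + 1) → Bool => F (i.insertNth false w))| / 2 ≤ 1 / 2 := by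
  -- a coordinate with small square coefficient
  have hB := bessel F
  rw [avg_sq_eq_one F hF] at hB
  obtain ⟨i, hi⟩ : ∃ i : Fin (n + 2), coef F i ^ 2 * ((n : ℝ) + 2) ≤ 1 := by
    by_contra hcon
    push Not at hcon
    have hsum : ∑ i : Fin (n + 2), (1 / ((n : ℝ) + 2)) < ∑ i, coef F i ^ 2 := by
      apply Finset.sum_lt_sum_of_nonempty Finset.univ_nonempty
      intro i _
      have hpos : (0 : ℝ) < (n : ℝ) + 2 := by positivity
      rw [div_lt_iff₀ hpos]
      exact hcon i
    have hone : ∑ i : Fin (n + 2), (1 / ((n : ℝ) + 2)) = 1 := by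
      rw [Finset.sum_const, Finset.card_univ, Fintype.card_fin, nsmul_eq_mul]
      push_cast
      field_simp
    linarith
  refine ⟨i, ?_⟩
  have hc : |avg (fun w : Fin (n + 1) → Bool => F (i.insertNth true w))
      - avg (fun w : Fin (n + 1) → Bool => F (i.insertNth false w))| / 2 = |coef F i| := by
    rw [← coef_eq F i, abs_div]
    norm_num
  rw [hc]
  -- now bound the coefficient
  suffices h : coef F i ^ 2 ≤ (1 / 2) ^ 2 by
    exact abs_le_of_sq_le_sq h (by norm_num)
  obtain ⟨S, hS⟩ := coef_int F hF i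
  match n, F, hF, hB, i, hi, hS with
  | 0, F, hF, hB, i, hi, hS =>
    norm_num at hi hS
    rw [hS] at hi ⊢
    have h1 : ((S : ℝ)) ^ 2 ≤ 8 := by nlinarith
    have h2 : S ^ 2 ≤ 8 := by exact_mod_cast h1
    have h3 : S ^ 2 ≤ 4 := by
      have hl : -2 ≤ S := by nlinarith
      have hu : S ≤ 2 := by nlinarith
      nlinarith
    have h4 : ((S : ℝ)) ^ 2 ≤ 4 := by exact_mod_cast h3
    nlinarith
  | 1, F, hF, hB, i, hi, hS =>
    norm_num at hi hS
    rw [hS] at hi ⊢
    have h1 : ((S : ℝ)) ^ 2 * 3 ≤ 64 := by nlinarith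
    have h2 : S ^ 2 * 3 ≤ 64 := by exact_mod_cast h1
    have h3 : S ^ 2 ≤ 16 := by
      have hl : -4 ≤ S := by nlinarith
      have hu : S ≤ 4 := by nlinarith
      nlinarith
    have h4 : ((S : ℝ)) ^ 2 ≤ 16 := by exact_mod_cast h3
    nlinarith
  | m + 2, F, hF, hB, i, hi, hS =>
    have hm : (0 : ℝ) ≤ (m : ℝ) := Nat.cast_nonneg m
    have hsq : 0 ≤ coef F i ^ 2 := sq_nonneg _
    push_cast at hi
    nlinarith

end Vale.Agent.P322V
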