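import Vale.Agent.P322V.Defs

/-! Part D of the fixed-rho induction: the analytic core inequality. -/

namespace Vale.Agent.P322V

open Real

/-! ### Numeric exponential bounds -/

lemma le_exp_of_pow {p q : ℕ} (hq : 0 < q) {c : ℝ}
    (h : c ^ q ≤ (2.7182818283 : ℝ) ^ p) : c ≤ Real.exp ((p : ℝ) / q) := by
  have h1 : (2.7182818283 : ℝ) ^ p ≤ Real.exp 1 ^ p :=
    pow_le_pow_left₀ (by norm_num) Real.exp_one_gt_d9.le p
  have h2 : Real.exp ((p : ℝ) / q) ^ q = Real.exp 1 ^ p := by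
    rw [← Real.exp_nat_mul, ← Real.exp_nat_mul]
    congr 1
    have : (q : ℝ) ≠ 0 := by positivity
    field_simp
  exact le_of_pow_le_pow_left₀ hq.ne' (Real.exp_pos _).le (by rw [h2]; linarith)

lemma exp_le_of_pow {p q : ℕ} (hq : 0 < q) {c : ℝ} (hc : 0 ≤ c)
    (h : (2.7182818286 : ℝ) ^ p ≤ c ^ q) : Real.exp ((p : ℝ) / q) ≤ c := by
  have h1 : Real.exp 1 ^ p ≤ (2.7182818286 : ℝ) ^ p :=
    pow_le_pow_left₀ (Real.exp_pos _).le Real.exp_one_lt_d9.le p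
  have h2 : Real.exp ((p : ℝ) / q) ^ q = Real.exp 1 ^ p := by
    rw [← Real.exp_nat_mul, ← Real.exp_nat_mul]
    congr 1
    have : (q : ℝ) ≠ 0 := by positivity
    field_simp
  exact le_of_pow_le_pow_left₀ hq.ne' hc (by rw [h2]; linarith)

/-- Upper bound for a negative exponent at a rational point. -/
lemma exp_neg_le_of_pow {p q : ℕ} (hq : 0 < q) {r c : ℝ} (hc : 0 < c)
    (hr : r = (p : ℝ) / q)
    (h : (1 / c) ^ q ≤ (2.7182818283 : ℝ) ^ p) : Real.exp (-r) ≤ c := by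
  have h1 := le_exp_of_pow hq h
  rw [← hr] at h1
  rw [Real.exp_neg]
  have h2 : 0 < Real.exp r := Real.exp_pos _
  rw [inv_le_comm₀ h2 hc]
  rwa [one_div] at h1

/-- Lower bound for a negative exponent at a rational point. -/
lemma le_exp_neg_of_pow {p q : ℕ} (hq : 0 < q) {r d : ℝ} (hd : 0 < d)
    (hr : r = (p : ℝ) / q)
    (h : (2.7182818286 : ℝ) ^ p ≤ (1 / d) ^ q) : d ≤ Real.exp (-r) := by
  have h1 := exp_le_of_pow hq (by positivity) h
  rw [← hr] at h1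
  rw [Real.exp_neg]
  have h2 : 0 < Real.exp r := Real.exp_pos _
  rw [le_inv_comm₀ hd h2]
  rwa [one_div] at h1

/-! ### The inequality (R2') -/

lemma R2_interval {a b ca db K : ℝ} (ha : a ≤ K) (hb : K ≤ b)
    (hK0 : 0 < K)
    (hca : Real.exp (-(5 / 6 * a)) ≤ ca) (hdb : db ≤ Real.exp (-(2 * b)))
    (hcd : 0 ≤ ca - db)
    (hnum : 2 * 2.7182818286 * (ca - db) ≤ 49 / 72 + (7 / 12) / b) :
    2 * Real.exp 1 * (Real.exp (-(5 / 6 * K)) - Real.exp (-(2 * K))) ≤ 49 / 72 + (7 / 12) / K := by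
  have h1 : Real.exp (-(5 / 6 * K)) ≤ Real.exp (-(5 / 6 * a)) :=
    Real.exp_le_exp.mpr (by linarith)
  have h2 : Real.exp (-(2 * b)) ≤ Real.exp (-(2 * K)) :=
    Real.exp_le_exp.mpr (by linarith)
  have h3 : Real.exp (-(5 / 6 * K)) - Real.exp (-(2 * K)) ≤ ca - db := by linarith
  have he := Real.exp_one_lt_d9
  have he0 := Real.exp_pos 1
  have h4 : 2 * Real.exp 1 * (Real.exp (-(5 / 6 * K)) - Real.exp (-(2 * K)))
      ≤ 2 * 2.7182818286 * (ca - db) := by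
    have : Real.exp 1 * (Real.exp (-(5 / 6 * K)) - Real.exp (-(2 * K))) ≤ Real.exp 1 * (ca - db) :=
      mul_le_mul_of_nonneg_left h3 he0.le
    have h5 : Real.exp 1 * (ca - db) ≤ 2.7182818286 * (ca - db) :=
      mul_le_mul_of_nonneg_right he.le hcd
    linarith
  have h6 : (7 / 12) / b ≤ (7 / 12) / K := by
    apply div_le_div_of_nonneg_left (by norm_num) hK0 hb
  linarith

lemma R2' {K : ℝ} (hK : 39 / 20 ≤ K) :
    2 * Real.exp 1 * (Real.exp (-(5 / 6 * K)) - Real.exp (-(2 * K))) ≤ 49 / 72 + (7 / 12) / K := by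
  have hK0 : 0 < K := by linarith
  by_cases h1 : K ≤ 2
  · refine R2_interval (a := 39 / 20) (b := 2) (ca := 0.19692) (db := 0.0183) hK h1 hK0
      ?_ ?_ (by norm_num) (by norm_num)
    · exact exp_neg_le_of_pow (p := 13) (q := 8) (by norm_num) (by norm_num) (by norm_num) (by norm_num)
    · exact le_exp_neg_of_pow (p := 4) (q := 1) (by norm_num) (by norm_num) (by norm_num) (by norm_num)
  push Not at h1
  by_cases h2 : K ≤ 2.1
  · refine R2_interval (a := 2) (b := 2.1) (ca := 0.1889) (db := 0.0149) h1.le h2 hK0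
      ?_ ?_ (by norm_num) (by norm_num)
    · exact exp_neg_le_of_pow (p := 5) (q := 3) (by norm_num) (by norm_num) (by norm_num) (by norm_num)
    · exact le_exp_neg_of_pow (p := 21) (q := 5) (by norm_num) (by norm_num) (by norm_num) (by norm_num)
  push Not at h2
  by_cases h3 : K ≤ 2.3
  · refine R2_interval (a := 2.1) (b := 2.3) (ca := 0.1738) (db := 0.01) h2.le h3 hK0
      ?_ ?_ (by norm_num) (by norm_num)
    · exact exp_neg_le_of_pow (p := 7) (q := 4) (by norm_num) (by norm_num) (by norm_num) (by norm_num)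
    · exact le_exp_neg_of_pow (p := 23) (q := 5) (by norm_num) (by norm_num) (by norm_num) (by norm_num)
  push Not at h3
  by_cases h4 : K ≤ 3
  · refine R2_interval (a := 2.3) (b := 3) (ca := 0.1472) (db := 0.0024) h3.le h4 hK0
      ?_ ?_ (by norm_num) (by norm_num)
    · exact exp_neg_le_of_pow (p := 23) (q := 12) (by norm_num) (by norm_num) (by norm_num) (by norm_num)
    · exact le_exp_neg_of_pow (p := 6) (q := 1) (by norm_num) (by norm_num) (by norm_num) (by norm_num)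
  push Not at h4
  -- large K
  have h5 : Real.exp (-(5 / 6 * K)) ≤ Real.exp (-(5 / 2)) := Real.exp_le_exp.mpr (by linarith)
  have h6 : Real.exp (-(5 / 2)) ≤ 0.0821 :=
    exp_neg_le_of_pow (p := 5) (q := 2) (by norm_num) (by norm_num) (by norm_num) (by norm_num)
  have h7 := Real.exp_pos (-(2 * K))
  have he := Real.exp_one_lt_d9
  have he0 := Real.exp_pos 1
  have h8 : 0 ≤ (7 / 12) / K := by positivity
  have h9 : Real.exp 1 * (Real.exp (-(5 / 6 * K)) - Real.exp (-(2 * K))) ≤ Real.exp 1 * 0.0821 :=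
    mul_le_mul_of_nonneg_left (by linarith) he0.le
  nlinarith

/-! ### Case `T ≥ 1` -/

/-- Discrete monotonicity of `(2T²+T)/(e^{2T}-1)` on `[1,∞)`, cross-multiplied. -/
lemma phi_anti {T T₀ : ℝ} (hT : 1 ≤ T) (hTT : T ≤ T₀) :
    (2 * T₀ ^ 2 + T₀) * (Real.exp (2 * T) - 1) ≤ (2 * T ^ 2 + T) * (Real.exp (2 * T₀) - 1) := by
  obtain ⟨s, hs, rfl⟩ : ∃ s, 0 ≤ s ∧ T₀ = T + s := ⟨T₀ - T, by linarith, by ring⟩
  set w := Real.exp (2 * T) with hw
  have hw1 : 1 ≤ w := Real.one_le_exp (by linarith)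
  have hsplit : Real.exp (2 * (T + s)) = w * Real.exp (2 * s) := by
    rw [hw, ← Real.exp_add]; ring_nf
  have hq : 1 + 2 * s + (2 * s) ^ 2 / 2 ≤ Real.exp (2 * s) :=
    Real.quadratic_le_exp_of_nonneg (by linarith)
  rw [hsplit]
  have hA : 0 ≤ 2 * T ^ 2 + T := by nlinarith
  have h1 : (2 * T ^ 2 + T) * (w * (1 + 2 * s + (2 * s) ^ 2 / 2) - 1)
      ≤ (2 * T ^ 2 + T) * (w * Real.exp (2 * s) - 1) := by
    apply mul_le_mul_of_nonneg_left _ hA
    have := mul_le_mul_of_nonneg_left hq (by linarith : (0 : ℝ) ≤ w)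
    linarith
  refine le_trans ?_ h1
  have h2 : 1 ≤ 4 * T ^ 2 - 2 * T := by nlinarith
  have h3 : 0 ≤ s * (w - 1) := mul_nonneg hs (by linarith)
  have h4 : 0 ≤ s * w := mul_nonneg hs (by linarith)
  have h5 : 0 ≤ s * s * w := mul_nonneg (mul_nonneg hs hs) (by linarith)
  have h6 : 3 ≤ 2 * T ^ 2 + T := by nlinarith
  -- expand: difference is `s*w*(4T²+2T) + 2s²w(2T²+T) - (4Ts+2s²+s)(w-1)`.
  have key : (2 * T ^ 2 + T) * (w * (1 + 2 * s + (2 * s) ^ 2 / 2) - 1)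
      - (2 * (T + s) ^ 2 + (T + s)) * (w - 1)
      = s * w * (4 * T ^ 2 - 2 * T - 1) + s * (4 * T + 1) + 2 * (s * s * w) * (2 * T ^ 2 + T - 1)
        + 2 * (s * s) := by ring
  have h7 : 0 ≤ s * w * (4 * T ^ 2 - 2 * T - 1) := mul_nonneg h4 (by linarith)
  have h8 : 0 ≤ s * (4 * T + 1) := mul_nonneg hs (by linarith)
  have h9 : 0 ≤ 2 * (s * s * w) * (2 * T ^ 2 + T - 1) := mul_nonneg (by linarith) (by linarith)
  have h10 : 0 ≤ 2 * (s * s) := by nlinarith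
  linarith

/-- (R) for `T ≥ 1`. -/
lemma R_large {K T δ : ℝ} (hK : 39 / 20 ≤ K) (hT0 : 1 ≤ T) (hT1 : T ≤ 7 / 12 * K) (hδ0 : 0 < δ)
    (hδ : δ ≤ 2 * Real.exp (1 - 2 * K)) :
    δ * ((Real.exp (2 * T) - 1) * (K ^ 2 - T ^ 2)
        + (Real.exp (2 * T) + 1) * (T ^ 2 + T / 2) / 2) ≤ 2 * T ^ 2 + T := by
  have hK0 : 0 < K := by linarith
  set w := Real.exp (2 * T) with hw
  have hw7 : 7 ≤ w := by
    have h1 : Real.exp 2 ≤ w := Real.exp_le_exp.mpr (by linarith)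
    have h2 : (7 : ℝ) ≤ Real.exp 2 := by
      have := le_exp_of_pow (p := 2) (q := 1) (c := 7) (by norm_num) (by norm_num)
      simpa using this
    linarith
  have hG : (w + 1) * (T ^ 2 + T / 2) / 2 ≤ (w - 1) * T ^ 2 := by
    have h1 : 0 ≤ T * ((w - 7) * (T - 1 / 2) + 4 * (T - 1)) := by
      apply mul_nonneg (by linarith)
      have : 0 ≤ (w - 7) * (T - 1 / 2) := mul_nonneg (by linarith) (by linarith)
      linarith
    nlinarith
  have hL : (w - 1) * (K ^ 2 - T ^ 2) + (w + 1) * (T ^ 2 + T / 2) / 2 ≤ (w - 1) * K ^ 2 := by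
    nlinarith
  -- the value at `T₀`
  set T₀ := 7 / 12 * K with hT₀
  have hanti := phi_anti hT0 hT1
  have hw0 : Real.exp (2 * T₀) = Real.exp (7 / 6 * K) := by rw [hT₀]; ring_nf
  rw [hw0] at hanti
  have hW0pos : 0 < Real.exp (7 / 6 * K) - 1 := by
    have : 1 < Real.exp (7 / 6 * K) := Real.one_lt_exp_iff.mpr (by positivity)
    linarith
  -- R2' rewritten
  have hR2 := R2' hK
  have hc : δ * (Real.exp (7 / 6 * K) - 1) * K ^ 2 ≤ 2 * T₀ ^ 2 + T₀ := by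
    have e1 : 2 * Real.exp (1 - 2 * K) * (Real.exp (7 / 6 * K) - 1)
        = 2 * Real.exp 1 * (Real.exp (-(5 / 6 * K)) - Real.exp (-(2 * K))) := by
      have e2 : Real.exp (1 - 2 * K) = Real.exp 1 * Real.exp (-(2 * K)) := by
        rw [← Real.exp_add]; ring_nf
      have e3 : Real.exp (-(2 * K)) * Real.exp (7 / 6 * K) = Real.exp (-(5 / 6 * K)) := by
        rw [← Real.exp_add]; ring_nf
      rw [e2, ← e3]; ring
    have h2 : δ * (Real.exp (7 / 6 * K) - 1) ≤ 49 / 72 + (7 / 12) / K := by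
      have := mul_le_mul_of_nonneg_right hδ hW0pos.le
      rw [e1] at this
      linarith
    have h3 : (49 / 72 + (7 / 12) / K) * K ^ 2 = 2 * T₀ ^ 2 + T₀ := by
      rw [hT₀]; field_simp; ring
    rw [← h3]
    exact mul_le_mul_of_nonneg_right h2 (by positivity)
  -- combine
  have hwpos : 0 < w - 1 := by linarith
  have hA : 0 < 2 * T ^ 2 + T := by nlinarith
  have hA0 : 0 < 2 * T₀ ^ 2 + T₀ := by
    have : 0 < T₀ := by rw [hT₀]; positivity
    positivity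
  have hfinal : δ * ((w - 1) * K ^ 2) ≤ 2 * T ^ 2 + T := by
    -- `δ K² (W0-1) ≤ A0`, `A0 (w-1) ≤ A (W0-1)`.
    have h1 : δ * (Real.exp (7 / 6 * K) - 1) * K ^ 2 * (w - 1) ≤ (2 * T₀ ^ 2 + T₀) * (w - 1) :=
      mul_le_mul_of_nonneg_right hc hwpos.le
    have h2 : δ * ((w - 1) * K ^ 2) * (Real.exp (7 / 6 * K) - 1)
        ≤ (2 * T ^ 2 + T) * (Real.exp (7 / 6 * K) - 1) := by
      calc _ = δ * (Real.exp (7 / 6 * K) - 1) * K ^ 2 * (w - 1) := by ring
        _ ≤ _ := le_trans h1 hanti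
    exact le_of_mul_le_mul_right h2 hW0pos
  calc _ ≤ δ * ((w - 1) * K ^ 2) := mul_le_mul_of_nonneg_left hL hδ0.le
    _ ≤ _ := hfinal

/-! ### Case `T ≤ 1` -/

/-- `e^{2T} - 1 ≤ 2.13 (2T²+T)` on `[0,1]`. -/
lemma exp_two_sub_one_le {T : ℝ} (hT0 : 0 ≤ T) (hT1 : T ≤ 1) :
    Real.exp (2 * T) - 1 ≤ 213 / 100 * (2 * T ^ 2 + T) := by
  have h := Real.exp_bound' hT0 hT1 (n := 5) (by norm_num)
  have hP : Real.exp T ≤ 1 + T + T ^ 2 / 2 + T ^ 3 / 6 + T ^ 4 / 24 + T ^ 5 / 100 := by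
    refine le_trans h (le_of_eq ?_)
    simp [Finset.sum_range_succ, Nat.factorial]
    ring
  have hsq : Real.exp (2 * T) = Real.exp T * Real.exp T := by
    rw [← Real.exp_add]; ring_nf
  rw [hsq]
  have he := Real.exp_pos T
  have hP2 : Real.exp T * Real.exp T
      ≤ (1 + T + T ^ 2 / 2 + T ^ 3 / 6 + T ^ 4 / 24 + T ^ 5 / 100)
        * (1 + T + T ^ 2 / 2 + T ^ 3 / 6 + T ^ 4 / 24 + T ^ 5 / 100) :=
    mul_le_mul hP hP he.le (by positivity)
  have h22 : T ^ 2 ≤ T := by nlinarith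
  have h3 : T ^ 3 ≤ T ^ 2 := by
    have : T ^ 3 = T ^ 2 * T := by ring
    nlinarith [sq_nonneg T]
  have hk : ∀ k : ℕ, T ^ (k + 1) ≤ T ^ k := fun k => by
    have : T ^ (k + 1) = T ^ k * T := by ring
    have h0 : 0 ≤ T ^ k := by positivity
    nlinarith
  have h4 := hk 3
  have h5 := hk 4
  have h6 := hk 5
  have h7 := hk 6
  have h8 := hk 7
  have h9 := hk 8
  have h10 := hk 9
  have hexpand : (1 + T + T ^ 2 / 2 + T ^ 3 / 6 + T ^ 4 / 24 + T ^ 5 / 100)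
        * (1 + T + T ^ 2 / 2 + T ^ 3 / 6 + T ^ 4 / 24 + T ^ 5 / 100) - 1
      = T * 2 + T ^ 2 * 2 + T ^ 3 * (4 / 3) + T ^ 4 * (2 / 3) + T ^ 5 * (27 / 100)
        + T ^ 6 * (161 / 1800) + T ^ 7 * (43 / 1800) + T ^ 8 * (73 / 14400) + T ^ 9 * (1 / 1200)
        + T ^ 10 * (1 / 10000) := by
    ring
  norm_num at h4 h5 h6 h7 h8 h9 h10
  linarith

/-- The `Γ ≤ 7/20` bound, in cross-multiplied form. -/
lemma gamma_le {T : ℝ} (hT0 : 0 < T) :
    (Real.exp (2 * T) + 1) * (T ^ 2 + T / 2) / 2 - (Real.exp (2 * T) - 1) * T ^ 2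
      ≤ 7 / 20 * (Real.exp (2 * T) - 1) := by
  set u := Real.exp (2 * T) - 1 with hu
  have hq : 1 + 2 * T + (2 * T) ^ 2 / 2 ≤ Real.exp (2 * T) :=
    Real.quadratic_le_exp_of_nonneg (by linarith)
  have hu1 : 2 * T + 2 * T ^ 2 ≤ u := by rw [hu]; nlinarith
  have hc : 0 < T ^ 2 / 2 - T / 4 + 7 / 20 := by nlinarith [sq_nonneg (T - 1 / 4)]
  have hw : Real.exp (2 * T) = u + 1 := by rw [hu]; ring
  rw [hw]
  have h1 : (2 * T + 2 * T ^ 2) * (T ^ 2 / 2 - T / 4 + 7 / 20) ≤ u * (T ^ 2 / 2 - T / 4 + 7 / 20) :=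
    mul_le_mul_of_nonneg_right hu1 hc.le
  have h2 : T ^ 2 + T / 2 ≤ (2 * T + 2 * T ^ 2) * (T ^ 2 / 2 - T / 4 + 7 / 20) := by
    have h3 : 0 ≤ T * (T ^ 3 + T ^ 2 / 2 - 4 / 5 * T + 1 / 5) := by
      apply mul_nonneg hT0.le
      nlinarith [mul_nonneg hT0.le (sq_nonneg (T - 3 / 8)), sq_nonneg (T - 3 / 8)]
    nlinarith
  nlinarith

/-- `2 e^{1-2K} (K²+7/20) (213/100) ≤ 1` for `K ≥ 39/20`. -/
lemma small_numeric {K : ℝ} (hK : 39 / 20 ≤ K) :
    2 * Real.exp (1 - 2 * K) * (K ^ 2 + 7 / 20) * (213 / 100) ≤ 1 := by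
  obtain ⟨h, hh, rfl⟩ : ∃ h, 0 ≤ h ∧ K = 39 / 20 + h := ⟨K - 39 / 20, by linarith, by ring⟩
  have h49 : (49 : ℝ) ≤ Real.exp (39 / 10) := by
    have := le_exp_of_pow (p := 39) (q := 10) (c := 49) (by norm_num) (by norm_num)
    norm_num at this ⊢
    exact this
  have hq : 1 + 2 * h + (2 * h) ^ 2 / 2 ≤ Real.exp (2 * h) :=
    Real.quadratic_le_exp_of_nonneg (by linarith)
  have hE : Real.exp (2 * (39 / 20 + h)) = Real.exp (39 / 10) * Real.exp (2 * h) := by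
    rw [← Real.exp_add]; ring_nf
  have hE2 : Real.exp (1 - 2 * (39 / 20 + h)) * Real.exp (2 * (39 / 20 + h)) = Real.exp 1 := by
    rw [← Real.exp_add]; ring_nf
  have hpos := Real.exp_pos (2 * (39 / 20 + h))
  have hlow : 49 * (1 + 2 * h + (2 * h) ^ 2 / 2) ≤ Real.exp (2 * (39 / 20 + h)) := by
    rw [hE]
    have h2 : 0 ≤ 1 + 2 * h + (2 * h) ^ 2 / 2 := by positivity
    exact mul_le_mul h49 hq h2 (by positivity)
  have he := Real.exp_one_lt_d9
  have hmain : 2 * Real.exp 1 * ((39 / 20 + h) ^ 2 + 7 / 20) * (213 / 100)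
      ≤ Real.exp (2 * (39 / 20 + h)) := by
    have h3 : 2 * Real.exp 1 * ((39 / 20 + h) ^ 2 + 7 / 20) * (213 / 100)
        ≤ 2 * 2.7182818286 * ((39 / 20 + h) ^ 2 + 7 / 20) * (213 / 100) := by
      have : 0 ≤ ((39 / 20 + h) ^ 2 + 7 / 20) := by positivity
      nlinarith
    refine le_trans h3 (le_trans ?_ hlow)
    nlinarith [sq_nonneg h]
  have h4 : 2 * Real.exp (1 - 2 * (39 / 20 + h)) * ((39 / 20 + h) ^ 2 + 7 / 20) * (213 / 100)
      * Real.exp (2 * (39 / 20 + h))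
      = 2 * (Real.exp (1 - 2 * (39 / 20 + h)) * Real.exp (2 * (39 / 20 + h)))
        * ((39 / 20 + h) ^ 2 + 7 / 20) * (213 / 100) := by ring
  rw [hE2] at h4
  have h5 : 2 * Real.exp (1 - 2 * (39 / 20 + h)) * ((39 / 20 + h) ^ 2 + 7 / 20) * (213 / 100)
      * Real.exp (2 * (39 / 20 + h)) ≤ 1 * Real.exp (2 * (39 / 20 + h)) := by
    rw [h4, one_mul]; exact hmain
  exact le_of_mul_le_mul_right h5 hpos

/-- (R) for `T ≤ 1`. -/
lemma R_small {K T δ : ℝ} (hK : 39 / 20 ≤ K) (hT0 : 0 < T) (hT1 : T ≤ 1) (hδ0 : 0 < δ)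
    (hδ : δ ≤ 2 * Real.exp (1 - 2 * K)) :
    δ * ((Real.exp (2 * T) - 1) * (K ^ 2 - T ^ 2)
        + (Real.exp (2 * T) + 1) * (T ^ 2 + T / 2) / 2) ≤ 2 * T ^ 2 + T := by
  have h1 := gamma_le hT0
  have h2 := exp_two_sub_one_le hT0.le hT1
  have h3 := small_numeric hK
  set w := Real.exp (2 * T) with hw
  have hwpos : 0 ≤ w - 1 := by
    have : 1 ≤ w := Real.one_le_exp (by linarith)
    linarith
  have hL : (w - 1) * (K ^ 2 - T ^ 2) + (w + 1) * (T ^ 2 + T / 2) / 2 ≤ (w - 1) * (K ^ 2 + 7 / 20) := by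
    nlinarith
  have hK2 : 0 ≤ K ^ 2 + 7 / 20 := by positivity
  have hA : 0 ≤ 2 * T ^ 2 + T := by positivity
  calc δ * ((w - 1) * (K ^ 2 - T ^ 2) + (w + 1) * (T ^ 2 + T / 2) / 2)
      ≤ δ * ((w - 1) * (K ^ 2 + 7 / 20)) := mul_le_mul_of_nonneg_left hL hδ0.le
    _ ≤ δ * ((213 / 100 * (2 * T ^ 2 + T)) * (K ^ 2 + 7 / 20)) :=
        mul_le_mul_of_nonneg_left (mul_le_mul_of_nonneg_right h2 hK2) hδ0.le
    _ ≤ (2 * Real.exp (1 - 2 * K)) * ((213 / 100 * (2 * T ^ 2 + T)) * (K ^ 2 + 7 / 20)) :=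
        mul_le_mul_of_nonneg_right hδ (by positivity)
    _ = (2 * Real.exp (1 - 2 * K) * (K ^ 2 + 7 / 20) * (213 / 100)) * (2 * T ^ 2 + T) := by ring
    _ ≤ 1 * (2 * T ^ 2 + T) := mul_le_mul_of_nonneg_right h3 hA
    _ = _ := one_mul _

/-- (R): the combined inequality. -/
lemma main_R {K T δ : ℝ} (hK : 39 / 20 ≤ K) (hT0 : 0 < T) (hT1 : T ≤ 7 / 12 * K) (hδ0 : 0 < δ)
    (hδ : δ ≤ 2 * Real.exp (1 - 2 * K)) :
    δ * ((Real.exp (2 * T) - 1) * (K ^ 2 - T ^ 2)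
        + (Real.exp (2 * T) + 1) * (T ^ 2 + T / 2) / 2) ≤ 2 * T ^ 2 + T := by
  rcases le_total T 1 with h | h
  · exact R_small hK hT0 h hδ0 hδ
  · exact R_large hK h hT1 hδ0 hδ

/-- `x < 1`: `δ (w+1) < 4`. -/
lemma delta_mul_lt_four {K T δ : ℝ} (hK : 39 / 20 ≤ K) (hT1 : T ≤ 7 / 12 * K) (hδ0 : 0 < δ)
    (hδ : δ ≤ 2 * Real.exp (1 - 2 * K)) : δ * (Real.exp (2 * T) + 1) < 4 := by
  have hw : Real.exp (2 * T) ≤ Real.exp (7 / 6 * K) := Real.exp_le_exp.mpr (by linarith)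
  have h1 : Real.exp (1 - 2 * K) * Real.exp (7 / 6 * K) = Real.exp (1 - 5 / 6 * K) := by
    rw [← Real.exp_add]; ring_nf
  have h2 : Real.exp (1 - 5 / 6 * K) ≤ Real.exp (-(1 / 2)) := Real.exp_le_exp.mpr (by linarith)
  have h3 : Real.exp (1 - 2 * K) ≤ Real.exp (-(1 / 2)) := Real.exp_le_exp.mpr (by linarith)
  have h4 : Real.exp (-(1 / 2)) ≤ 2 / 3 := by
    rw [Real.exp_neg]
    have : (1 : ℝ) + 1 / 2 ≤ Real.exp (1 / 2) := by
      have := Real.add_one_le_exp (1 / 2 : ℝ)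
      linarith
    rw [inv_le_comm₀ (Real.exp_pos _) (by norm_num)]
    norm_num at this ⊢
    linarith
  have hw0 : 0 < Real.exp (7 / 6 * K) + 1 := by positivity
  have h5 : δ * (Real.exp (2 * T) + 1) ≤ δ * (Real.exp (7 / 6 * K) + 1) :=
    mul_le_mul_of_nonneg_left (by linarith) hδ0.le
  have h6 : δ * (Real.exp (7 / 6 * K) + 1) ≤ 2 * Real.exp (1 - 2 * K) * (Real.exp (7 / 6 * K) + 1) :=
    mul_le_mul_of_nonneg_right hδ hw0.le
  have h7 : 2 * Real.exp (1 - 2 * K) * (Real.exp (7 / 6 * K) + 1)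
      = 2 * (Real.exp (1 - 2 * K) * Real.exp (7 / 6 * K)) + 2 * Real.exp (1 - 2 * K) := by ring
  rw [h1] at h7
  linarith

/-! ### Facts about `K = ψ(1-δ)/δ` -/

lemma psi_nine_tenths : (39 : ℝ) / 200 ≤ psi (9 / 10) := by
  have h : psi (9 / 10) = (19 / 20) * Real.log (20 / 19) + (1 / 20) * Real.log 20 := by
    unfold psi
    rw [Real.binEntropy]
    norm_num
  rw [h]
  have h1 : (1 : ℝ) / 20 ≤ Real.log (20 / 19) := by
    have := Real.one_sub_inv_le_log_of_pos (show (0 : ℝ) < 20 / 19 by norm_num)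
    norm_num at this ⊢
    linarith
  have h2 : (43 / 10 : ℝ) * Real.log 2 ≤ Real.log 20 := by
    have h3 : ((2 : ℝ) ^ 43) ≤ (20 : ℝ) ^ 10 := by norm_num
    have h4 := Real.log_le_log (by positivity) h3
    rw [Real.log_pow, Real.log_pow] at h4
    norm_num at h4
    linarith
  have h5 := Real.log_two_gt_d9
  nlinarith

lemma K_ge {δ : ℝ} (hδ0 : 0 < δ) (hδ1 : δ ≤ 1 / 10) : 39 / 20 ≤ psi (1 - δ) / δ := by
  have h := concaveOn_psi.2 (show (9 / 10 : ℝ) ∈ Set.Icc (-1 : ℝ) 1 by constructor <;> norm_num)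
    (show (1 : ℝ) ∈ Set.Icc (-1 : ℝ) 1 by constructor <;> norm_num)
    (show (0 : ℝ) ≤ 10 * δ by linarith) (show (0 : ℝ) ≤ 1 - 10 * δ by linarith)
    (by ring)
  have h1 : (10 * δ) • (9 / 10 : ℝ) + (1 - 10 * δ) • (1 : ℝ) = 1 - δ := by
    simp only [smul_eq_mul]; ring
  rw [h1, psi_one] at h
  simp only [smul_eq_mul, mul_zero, add_zero] at h
  have h2 := psi_nine_tenths
  rw [le_div_iff₀ hδ0]
  nlinarith

lemma delta_le {δ : ℝ} (hδ0 : 0 < δ) (hδ1 : δ ≤ 1 / 10) :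
    δ ≤ 2 * Real.exp (1 - 2 * (psi (1 - δ) / δ)) := by
  set p := δ / 2 with hp
  have hp0 : 0 < p := by positivity
  have hp1 : p < 1 := by rw [hp]; linarith
  have hψ : psi (1 - δ) = p * Real.log p⁻¹ + (1 - p) * Real.log (1 - p)⁻¹ := by
    unfold psi
    have : (1 + (1 - δ)) / 2 = 1 - p := by rw [hp]; ring
    rw [this, Real.binEntropy_one_sub, Real.binEntropy]
  have h1 : (1 - p) * Real.log (1 - p)⁻¹ ≤ p := by
    have h2 := Real.log_le_sub_one_of_pos (show 0 < (1 - p)⁻¹ by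
      have : 0 < 1 - p := by linarith
      positivity)
    have h3 : 0 < 1 - p := by linarith
    have h4 := mul_le_mul_of_nonneg_left h2 h3.le
    have h5 : (1 - p) * ((1 - p)⁻¹ - 1) = p := by field_simp; ring
    linarith
  have hδ : δ = 2 * p := by rw [hp]; ring
  have h6 : 2 * (psi (1 - δ) / δ) - 1 ≤ Real.log p⁻¹ := by
    have : psi (1 - δ) / δ ≤ (p * Real.log p⁻¹ + p) / (2 * p) := by
      rw [hδ]
      rw [← hδ, hψ, hδ]
      exact div_le_div_of_nonneg_right (by linarith) (by positivity)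
    have h7 : (p * Real.log p⁻¹ + p) / (2 * p) = (Real.log p⁻¹ + 1) / 2 := by
      field_simp
    rw [h7] at this
    linarith
  have h8 : Real.exp (2 * (psi (1 - δ) / δ) - 1) ≤ p⁻¹ := by
    calc _ ≤ Real.exp (Real.log p⁻¹) := Real.exp_le_exp.mpr h6
      _ = p⁻¹ := Real.exp_log (by positivity)
  have h9 : p ≤ Real.exp (1 - 2 * (psi (1 - δ) / δ)) := by
    have h10 : 1 - 2 * (psi (1 - δ) / δ) = -(2 * (psi (1 - δ) / δ) - 1) := by ring
    rw [h10, Real.exp_neg]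
    rw [le_inv_comm₀ hp0 (Real.exp_pos _)]
    exact h8
  rw [hδ] at h9 ⊢
  linarith

/-! ### Assembly -/

lemma tanh_eq (T : ℝ) :
    Real.tanh T = (Real.exp (2 * T) - 1) / (Real.exp (2 * T) + 1) := by
  rw [Real.tanh_eq_sinh_div_cosh, Real.sinh_eq, Real.cosh_eq]
  have h1 : Real.exp (2 * T) = Real.exp T * Real.exp T := by
    rw [← Real.exp_add]; ring_nf
  have h2 : Real.exp (-T) = (Real.exp T)⁻¹ := Real.exp_neg T
  rw [h1, h2]
  have h3 := Real.exp_pos T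
  have h4 : Real.exp T * Real.exp T + 1 ≠ 0 := by positivity
  have h5 : Real.exp T + (Real.exp T)⁻¹ ≠ 0 := by positivity
  field_simp

lemma ath_mono {a b : ℝ} (ha : -1 < a) (hab : a ≤ b) (hb : b < 1) : ath a ≤ ath b := by
  unfold ath
  have h1 : (1 + a) / (1 - a) ≤ (1 + b) / (1 - b) := by
    rw [div_le_div_iff₀ (by linarith) (by linarith)]
    nlinarith
  have h2 : 0 < (1 + a) / (1 - a) := div_pos (by linarith) (by linarith)
  have := Real.log_le_log h2 h1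
  linarith

/-- The analytic core, with `δ = 1-ρ`, `K = ψ(ρ)/δ`, `T = B K`. -/
lemma core_inequality {δ B : ℝ} (hδ0 : 0 < δ) (hδ1 : δ ≤ 1 / 10) (hB0 : 0 < B) (hB1 : B ≤ 7 / 12) :
    ∃ x : ℝ, 0 < x ∧ x < 1 ∧
      x * (psi (1 - δ) * (1 - B ^ 2)) ≤ B * psi x ∧
      B * x * psi (1 - δ) ≤ psi ((1 - δ) * x) - psi x := by
  set K := psi (1 - δ) / δ with hKdef
  have hK : 39 / 20 ≤ K := K_ge hδ0 hδ1
  have hK0 : 0 < K := by linarith
  have hδK : psi (1 - δ) = K * δ := by rw [hKdef]; field_simp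
  have hδe := delta_le hδ0 hδ1
  rw [← hKdef] at hδe
  set T := B * K with hTdef
  have hT0 : 0 < T := by positivity
  have hT1 : T ≤ 7 / 12 * K := by rw [hTdef]; exact mul_le_mul_of_nonneg_right hB1 hK0.le
  set w := Real.exp (2 * T) with hw
  have hw1 : 1 < w := Real.one_lt_exp_iff.mpr (by positivity)
  have hlt4 : δ * (w + 1) < 4 := delta_mul_lt_four hK hT1 hδ0 hδe
  have hR : δ * ((w - 1) * (K ^ 2 - T ^ 2) + (w + 1) * (T ^ 2 + T / 2) / 2) ≤ 2 * T ^ 2 + T :=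
    main_R hK hT0 hT1 hδ0 hδe
  have hy : Real.tanh T = (w - 1) / (w + 1) := tanh_eq T
  have hd2 : 0 < 1 - δ / 2 := by linarith
  set D := (w + 1) * (1 - δ / 2) with hD
  have hDpos : 0 < D := by positivity
  set x := (w - 1) / D with hx
  have hx0 : 0 < x := div_pos (by linarith) hDpos
  have h1x : 1 - x = (2 - δ * (w + 1) / 2) / D := by
    rw [hx, eq_div_iff hDpos.ne', sub_mul, div_mul_cancel₀ _ hDpos.ne', hD]; ring
  have hx1 : x < 1 := by
    have : 0 < 1 - x := by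
      rw [h1x]; exact div_pos (by linarith) hDpos
    linarith
  have hxy : x * (1 - δ / 2) = Real.tanh T := by
    have h2d : (2 : ℝ) - δ ≠ 0 := by
      have : (0 : ℝ) < 2 - δ := by linarith
      exact this.ne'
    rw [hy, hx, hD]; field_simp
  have hyx : Real.tanh T ≤ x := by
    rw [← hxy]; nlinarith
  have hathx : T ≤ ath x := by
    have h2 : ath (Real.tanh T) ≤ ath x := by
      apply ath_mono _ hyx hx1
      have := abs_tanh_lt_one T
      exact (abs_lt.mp this).1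
    rwa [ath_tanh] at h2
  refine ⟨x, hx0, hx1, ?_, ?_⟩
  · -- (i)
    have hpsi := psi_ge hx0.le hx1
    have h2 : (1 - x) * (T + 1 / 2) ≤ psi x :=
      le_trans (mul_le_mul_of_nonneg_left (by linarith) (by linarith)) hpsi
    have h3 : B * ((1 - x) * (T + 1 / 2)) ≤ B * psi x := mul_le_mul_of_nonneg_left h2 hB0.le
    refine le_trans ?_ h3
    rw [hδK, h1x, hx]
    have hT' : T = B * K := hTdef
    -- multiply out by `D * K`
    have hDK : 0 < D * K := by positivity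
    have key : (w - 1) * (K * δ * (1 - B ^ 2)) * K
        ≤ B * (2 - δ * (w + 1) / 2) * (T + 1 / 2) * K := by
      have e1 : (w - 1) * (K * δ * (1 - B ^ 2)) * K = δ * (w - 1) * (K ^ 2 - T ^ 2) := by
        rw [hT']; ring
      have e2 : B * (2 - δ * (w + 1) / 2) * (T + 1 / 2) * K
          = (2 * T ^ 2 + T) - δ * ((w + 1) * (T ^ 2 + T / 2) / 2) := by
        rw [hT']; ring
      rw [e1, e2]
      linarith
    have e3 : (w - 1) / D * (K * δ * (1 - B ^ 2))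
        = ((w - 1) * (K * δ * (1 - B ^ 2)) * K) / (D * K) := by
      field_simp
    have e4 : B * ((2 - δ * (w + 1) / 2) / D * (T + 1 / 2))
        = (B * (2 - δ * (w + 1) / 2) * (T + 1 / 2) * K) / (D * K) := by
      field_simp
    rw [e3, e4]
    exact div_le_div_of_nonneg_right key hDK.le
  · -- (ii)
    have h := psi_sub_ge hx0 hx1 hδ0 (by linarith)
    rw [hxy, ath_tanh] at h
    have e : B * x * psi (1 - δ) = x * δ * T := by
      rw [hδK, hTdef]; ring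
    rw [e]
    exact h

end Vale.Agent.P322V
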