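import Vale.Agent.P322V.Tangent
import Vale.Agent.P322V.Core

namespace Vale.Agent.P322V

open Real

/-- If `x` satisfies (i) and (ii) then its tangent certificate does the inductive step. -/
lemma step_of_i_ii {ρ B x : ℝ} (hρ0 : 0 < ρ) (hρ1 : ρ < 1) (hx0 : 0 < x) (hx1 : x < 1)
    (hB0 : 0 < B)
    (hi : x * (psi ρ * (1 - B ^ 2)) ≤ B * psi x)
    (hii : B * x * psi ρ ≤ psi (ρ * x) - psi x) :
    psi ρ ≤ alphaX ρ x * B + betaX ρ x * (psi ρ * (1 - B ^ 2)) := by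
  have hb1 := betaX_le_one hρ0 hρ1 hx0 hx1
  have ha := alphaX_mul hρ0 hρ1 hx0 hx1
  set a := alphaX ρ x
  set b := betaX ρ x
  set h0 := psi ρ
  -- the bracket `Q = x h0 (1-B²) - B ψ x` is nonpositive and `b ≤ 1`
  have hQ : (b - 1) * (x * (h0 * (1 - B ^ 2)) - B * psi x) ≥ 0 :=
    mul_nonneg_of_nonpos_of_nonpos (by linarith) (by linarith)
  have hB : B * (B * x * h0) ≤ B * (psi (ρ * x) - psi x) := mul_le_mul_of_nonneg_left hii hB0.le
  have key : x * h0 ≤ x * (a * B + b * (h0 * (1 - B ^ 2))) := by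
    have e : x * (a * B + b * (h0 * (1 - B ^ 2)))
        = (a * x) * B + b * (x * (h0 * (1 - B ^ 2))) := by ring
    rw [e, ha]
    nlinarith
  exact le_of_mul_le_mul_left key hx0

/-- **Inductive step certificate**: for `0.9 ≤ ρ < 1`, `0 ≤ B ≤ 7/12`. -/
theorem ht_exists {ρ B : ℝ} (hρ0 : 9 / 10 ≤ ρ) (hρ1 : ρ < 1) (hB0 : 0 ≤ B) (hB1 : B ≤ 7 / 12) :
    ∃ α β : ℝ, 0 ≤ α ∧ 0 < β ∧ β ≤ 1 ∧
      (∀ s : ℝ, |s| ≤ 1 → α * s + β * psi s ≤ psi (ρ * s)) ∧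
      psi ρ ≤ α * B + β * (psi ρ * (1 - B ^ 2)) := by
  have hρpos : 0 < ρ := by linarith
  rcases hB0.eq_or_lt with rfl | hBpos
  · refine ⟨0, 1, le_rfl, one_pos, le_rfl, ?_, by norm_num⟩
    intro s hs
    have h1 : psi s = psi |s| := by
      rcases abs_cases s with ⟨h, _⟩ | ⟨h, _⟩
      · rw [h]
      · rw [h, psi_neg]
    have h2 : psi (ρ * s) = psi |ρ * s| := by
      rcases abs_cases (ρ * s) with ⟨h, _⟩ | ⟨h, _⟩
      · rw [h]
      · rw [h, psi_neg]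
    have h3 : |ρ * s| ≤ |s| := by
      rw [abs_mul, abs_of_pos hρpos]
      nlinarith [abs_nonneg s]
    have h4 := psi_anti (abs_nonneg (ρ * s)) h3 hs
    rw [h1, h2]
    linarith
  · have hδ0 : 0 < 1 - ρ := by linarith
    have hδ1 : 1 - ρ ≤ 1 / 10 := by linarith
    obtain ⟨x, hx0, hx1, hi, hii⟩ := core_inequality hδ0 hδ1 hBpos hB1
    have e : 1 - (1 - ρ) = ρ := by ring
    rw [e] at hi hii
    exact ⟨alphaX ρ x, betaX ρ x, alphaX_nonneg hρpos hρ1 hx0 hx1, betaX_pos hρpos hρ1 hx0 hx1,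
      betaX_le_one hρpos hρ1 hx0 hx1, tangent_cert hρpos hρ1 hx0 hx1,
      step_of_i_ii hρpos hρ1 hx0 hx1 hBpos hi hii⟩

end Vale.Agent.P322V
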