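import Vale.Agent.P322V.TwoPoint
import Vale.Agent.P322V.HT
import Vale.Agent.P322V.Coord
import Vale.Agent.P322.Semi

namespace Vale.Agent.P322V

open Real Finset
open Vale.Agent.P322

section Split

variable {n : ℕ}

/-- Averaging over the cube splits along any coordinate. -/
lemma avg_insertNth (i : Fin (n + 1)) (g : (Fin (n + 1) → Bool) → ℝ) :
    avg g = (avg (fun w => g (i.insertNth true w)) + avg (fun w => g (i.insertNth false w))) / 2 := by
  unfold avg
  have h : ∑ x, g x = ∑ p : Bool × (Fin n → Bool), g (i.insertNth p.1 p.2) := by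
    symm
    exact Fintype.sum_equiv (Fin.insertNthEquiv (fun _ : Fin (n + 1) => Bool) i) _ _ (fun p => rfl)
  rw [h, Fintype.sum_prod_type, Fintype.sum_bool, pow_succ]
  field_simp

/-- The noise kernel splits along any coordinate. -/
lemma KK_insertNth (t : ℝ) (i : Fin (n + 1)) (b c : Bool) (x y : Fin n → Bool) :
    KK t (i.insertNth b x) (i.insertNth c y) = kk t b c * KK t x y := by
  unfold KK
  rw [Fin.prod_univ_succAbove _ i]
  simp

/-- The noise operator splits along any coordinate. -/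
lemma UU_insertNth (F : (Fin (n + 1) → Bool) → ℝ) (t : ℝ) (i : Fin (n + 1)) (c : Bool)
    (w : Fin n → Bool) :
    UU F t (i.insertNth c w) = kk t true c * UU (fun x => F (i.insertNth true x)) t w
      + kk t false c * UU (fun x => F (i.insertNth false x)) t w := by
  unfold UU
  have h : ∑ x, KK t x (i.insertNth c w) * F x
      = ∑ p : Bool × (Fin n → Bool),
          KK t (i.insertNth p.1 p.2) (i.insertNth c w) * F (i.insertNth p.1 p.2) := by
    symm
    exact Fintype.sum_equiv (Fin.insertNthEquiv (fun _ : Fin (n + 1) => Bool) i) _ _ (fun p => rfl)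
  rw [h, Fintype.sum_prod_type, Fintype.sum_bool, Finset.mul_sum, Finset.mul_sum]
  simp only [KK_insertNth, mul_assoc]

lemma abs_UU_le_of_values {F : (Fin n → Bool) → ℝ} (hF : ∀ x, F x = 1 ∨ F x = -1) {t : ℝ}
    (ht : 0 < t) (y : Fin n → Bool) : |UU F t y| ≤ 1 := by
  have h3 : 0 ≤ 1 + UU F t y := by
    rw [UU_add_one]
    refine Finset.sum_nonneg (fun x _ => mul_nonneg (KK_pos ht x y).le ?_)
    rcases hF x with h | h <;> rw [h] <;> norm_num
  have h4 : 0 ≤ 1 - UU F t y := by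
    rw [one_sub_UU]
    refine Finset.sum_nonneg (fun x _ => mul_nonneg (KK_pos ht x y).le ?_)
    rcases hF x with h | h <;> rw [h] <;> norm_num
  rw [abs_le]
  constructor <;> linarith

lemma abs_avg_le_one {g : (Fin n → Bool) → ℝ} (h : ∀ x, |g x| ≤ 1) : |avg g| ≤ 1 := by
  have h1 : avg g ≤ avg (fun _ : Fin n → Bool => (1 : ℝ)) :=
    avg_le_avg (fun x => (abs_le.mp (h x)).2)
  have h2 : avg (fun _ : Fin n → Bool => (-1 : ℝ)) ≤ avg g :=
    avg_le_avg (fun x => (abs_le.mp (h x)).1)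
  rw [avg_const] at h1 h2
  rw [abs_le]
  exact ⟨h2, h1⟩

lemma avg_div_two (g : (Fin n → Bool) → ℝ) : avg (fun x => g x / 2) = avg g / 2 := by
  unfold avg
  rw [← Finset.sum_div]
  ring

/-- The symmetrized entropy of a noised pair. -/
noncomputable def pairY (ρ a b : ℝ) : ℝ :=
  (psi ((a + b) / 2 + ρ * ((a - b) / 2)) + psi ((a + b) / 2 - ρ * ((a - b) / 2))) / 2

lemma pairY_comm (ρ a b : ℝ) : pairY ρ a b = pairY ρ b a := by
  unfold pairY
  have e1 : (a + b) / 2 + ρ * ((a - b) / 2) = (b + a) / 2 - ρ * ((b - a) / 2) := by ring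
  have e2 : (a + b) / 2 - ρ * ((a - b) / 2) = (b + a) / 2 + ρ * ((b - a) / 2) := by ring
  rw [e1, e2]
  ring

/-- The average of the entropy of the noised function, in terms of the two slices. -/
lemma y_split {ρ t : ℝ} (ht : Real.exp (-t) = ρ) (F : (Fin (n + 1) → Bool) → ℝ) (i : Fin (n + 1)) :
    avg (fun y => psi (UU F t y))
      = avg (fun w => pairY ρ (UU (fun x => F (i.insertNth true x)) t w)
          (UU (fun x => F (i.insertNth false x)) t w)) := by
  rw [avg_insertNth i, ← avg_add, ← avg_div_two]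
  congr 1
  funext w
  rw [UU_insertNth, UU_insertNth]
  set a := UU (fun x => F (i.insertNth true x)) t w
  set b := UU (fun x => F (i.insertNth false x)) t w
  have e1 : kk t true true * a + kk t false true * b = (a + b) / 2 + ρ * ((a - b) / 2) := by
    unfold kk
    rw [ht]
    simp only [sg_true, sg_false]
    ring
  have e2 : kk t true false * a + kk t false false * b = (a + b) / 2 - ρ * ((a - b) / 2) := by
    unfold kk
    rw [ht]
    simp only [sg_true, sg_false]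
    ring
  rw [e1, e2]
  rfl

/-- Averaged two-point inequality. -/
lemma two_point_avg {ρ α β : ℝ} (hρ0 : 0 < ρ) (hρ1 : ρ < 1) (hβ0 : 0 < β) (hβ1 : β ≤ 1)
    (hcert : ∀ s : ℝ, |s| ≤ 1 → α * s + β * psi s ≤ psi (ρ * s))
    (a b : (Fin n → Bool) → ℝ) (ha : ∀ w, |a w| ≤ 1) (hb : ∀ w, |b w| ≤ 1) :
    α * ((avg a - avg b) / 2)
        + β * ((avg (fun w => psi (a w)) + avg (fun w => psi (b w))) / 2)
      ≤ avg (fun w => pairY ρ (a w) (b w)) := by
  have h : ∀ w, α * ((a w - b w) / 2) + β * ((psi (a w) + psi (b w)) / 2)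
      ≤ pairY ρ (a w) (b w) := fun w =>
    two_point hρ0 hρ1 hβ0 hβ1 hcert (ha w) (hb w)
  have h2 := avg_le_avg h
  have e : avg (fun w => α * ((a w - b w) / 2) + β * ((psi (a w) + psi (b w)) / 2))
      = α * ((avg a - avg b) / 2)
        + β * ((avg (fun w => psi (a w)) + avg (fun w => psi (b w))) / 2) := by
    rw [avg_add, avg_mul_left, avg_mul_left, avg_div_two, avg_div_two, avg_sub, avg_add]
  rw [e] at h2
  exact h2

end Split

/-- The inductive step at a coordinate of small slice difference. -/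
lemma step_at_coord {ρ t : ℝ} (hρ0 : 0 < ρ) (hρ1 : ρ < 1) (ht : Real.exp (-t) = ρ) (U : ℝ → ℝ)
    (hstep : ∀ A B : ℝ, 0 ≤ B → B ≤ 1 / 2 → |A| + B ≤ 1 → ∃ α β : ℝ, 0 ≤ α ∧ 0 < β ∧ β ≤ 1 ∧
      (∀ s : ℝ, |s| ≤ 1 → α * s + β * psi s ≤ psi (ρ * s)) ∧
      U A ≤ α * B + β * ((U (A + B) + U (A - B)) / 2))
    {n : ℕ} (F : (Fin (n + 1) → Bool) → ℝ) (hF : ∀ x, F x = 1 ∨ F x = -1) (i : Fin (n + 1))
    (hB : |avg (fun w => F (i.insertNth true w)) - avg (fun w => F (i.insertNth false w))| / 2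
      ≤ 1 / 2)
    (ih1 : U (avg (fun w => F (i.insertNth true w)))
      ≤ avg (fun y => psi (UU (fun x => F (i.insertNth true x)) t y)))
    (ih2 : U (avg (fun w => F (i.insertNth false w)))
      ≤ avg (fun y => psi (UU (fun x => F (i.insertNth false x)) t y))) :
    U (avg F) ≤ avg (fun y => psi (UU F t y)) := by
  have ht0 : 0 < t := by
    have h1 : Real.exp (-t) < 1 := by rw [ht]; exact hρ1
    rw [Real.exp_lt_one_iff] at h1
    linarith
  set Fp : (Fin n → Bool) → ℝ := fun x => F (i.insertNth true x) with hFp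
  set Fm : (Fin n → Bool) → ℝ := fun x => F (i.insertNth false x) with hFm
  have hFpv : ∀ x, Fp x = 1 ∨ Fp x = -1 := fun x => hF _
  have hFmv : ∀ x, Fm x = 1 ∨ Fm x = -1 := fun x => hF _
  have habsv : ∀ {G : (Fin n → Bool) → ℝ}, (∀ x, G x = 1 ∨ G x = -1) → ∀ x, |G x| ≤ 1 := by
    intro G hG x
    rcases hG x with h | h <;> rw [h] <;> norm_num
  have hm1 : |avg Fp| ≤ 1 := abs_avg_le_one (habsv hFpv)
  have hm2 : |avg Fm| ≤ 1 := abs_avg_le_one (habsv hFmv)
  have hA : avg F = (avg Fp + avg Fm) / 2 := avg_insertNth i F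
  have hus := abs_UU_le_of_values hFpv ht0
  have hum := abs_UU_le_of_values hFmv ht0
  rw [y_split ht F i]
  set m1 := avg Fp
  set m2 := avg Fm
  have hAB : |(m1 + m2) / 2| + |m1 - m2| / 2 ≤ 1 := by
    have h1 := abs_le.mp hm1
    have h2 := abs_le.mp hm2
    rcases abs_cases ((m1 + m2) / 2) with ⟨e1, _⟩ | ⟨e1, _⟩ <;>
      rcases abs_cases (m1 - m2) with ⟨e2, _⟩ | ⟨e2, _⟩ <;> rw [e1, e2] <;> linarith
  obtain ⟨α, β, hα, hβ0, hβ1, hcert, hU⟩ :=
    hstep ((m1 + m2) / 2) (|m1 - m2| / 2) (by positivity) hB hAB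
  rw [hA]
  rcases le_total m2 m1 with hle | hle
  · -- `A + B = m1`, `A - B = m2`
    have e0 : |m1 - m2| = m1 - m2 := abs_of_nonneg (by linarith)
    have e1 : (m1 + m2) / 2 + |m1 - m2| / 2 = m1 := by rw [e0]; ring
    have e2 : (m1 + m2) / 2 - |m1 - m2| / 2 = m2 := by rw [e0]; ring
    rw [e1, e2, e0] at hU
    have h2 := two_point_avg hρ0 hρ1 hβ0 hβ1 hcert (UU Fp t) (UU Fm t) hus hum
    rw [avg_UU, avg_UU] at h2
    have h3 : β * ((U m1 + U m2) / 2)
        ≤ β * ((avg (fun w => psi (UU Fp t w)) + avg (fun w => psi (UU Fm t w))) / 2) :=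
      mul_le_mul_of_nonneg_left (by linarith) hβ0.le
    linarith
  · have e0 : |m1 - m2| = m2 - m1 := by rw [abs_sub_comm]; exact abs_of_nonneg (by linarith)
    have e1 : (m1 + m2) / 2 + |m1 - m2| / 2 = m2 := by rw [e0]; ring
    have e2 : (m1 + m2) / 2 - |m1 - m2| / 2 = m1 := by rw [e0]; ring
    rw [e1, e2, e0] at hU
    have h2 := two_point_avg hρ0 hρ1 hβ0 hβ1 hcert (UU Fm t) (UU Fp t) hum hus
    rw [avg_UU, avg_UU] at h2
    have h3 : β * ((U m2 + U m1) / 2)
        ≤ β * ((avg (fun w => psi (UU Fm t w)) + avg (fun w => psi (UU Fp t w))) / 2) :=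
      mul_le_mul_of_nonneg_left (by linarith) hβ0.le
    have e3 : (fun w => pairY ρ (UU Fm t w) (UU Fp t w))
        = (fun w => pairY ρ (UU Fp t w) (UU Fm t w)) := by
      funext w
      exact pairY_comm _ _ _
    rw [e3] at h2
    linarith

/-- On the empty cube the noise operator is the identity. -/
lemma UU_fin_zero (F : (Fin 0 → Bool) → ℝ) (t : ℝ) (y : Fin 0 → Bool) : UU F t y = F y := by
  unfold UU
  rw [Fintype.sum_subsingleton _ y]
  simp [KK]

lemma avg_fin_zero (g : (Fin 0 → Bool) → ℝ) (y : Fin 0 → Bool) : avg g = g y := by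
  unfold avg
  rw [Fintype.sum_subsingleton _ y]
  simp

/-- The base cases of the induction. -/
lemma base_zero {t : ℝ} (U : ℝ → ℝ) (hU1 : U 1 ≤ 0) (hUm : U (-1) ≤ 0)
    (F : (Fin 0 → Bool) → ℝ) (hF : ∀ x, F x = 1 ∨ F x = -1) :
    U (avg F) ≤ avg (fun y => psi (UU F t y)) := by
  have y0 : Fin 0 → Bool := Fin.elim0
  rw [avg_fin_zero F y0, avg_fin_zero _ y0, UU_fin_zero]
  rcases hF y0 with h | h <;> rw [h]
  · rw [psi_one]; exact hU1
  · rw [psi_neg_one]; exact hUm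

lemma base_one {ρ t : ℝ} (ht : Real.exp (-t) = ρ) (U : ℝ → ℝ) (hU1 : U 1 ≤ 0) (hUm : U (-1) ≤ 0)
    (hU0 : U 0 ≤ psi ρ) (F : (Fin 1 → Bool) → ℝ) (hF : ∀ x, F x = 1 ∨ F x = -1) :
    U (avg F) ≤ avg (fun y => psi (UU F t y)) := by
  have y0 : Fin 0 → Bool := Fin.elim0
  rw [y_split ht F 0, avg_insertNth 0 F, avg_fin_zero _ y0, avg_fin_zero _ y0, avg_fin_zero _ y0,
    UU_fin_zero, UU_fin_zero]
  unfold pairY
  rcases hF (Fin.insertNth 0 true y0) with h1 | h1 <;>
    rcases hF (Fin.insertNth 0 false y0) with h2 | h2 <;> rw [h1, h2]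
  · norm_num
    rw [psi_one]
    exact hU1
  · have e1 : (1 + (-1 : ℝ)) / 2 = 0 := by norm_num
    have e2 : (1 - (-1 : ℝ)) / 2 = 1 := by norm_num
    rw [e1, e2]
    simp only [mul_one, zero_add, zero_sub, psi_neg]
    simpa using hU0
  · have e1 : (-1 + (1 : ℝ)) / 2 = 0 := by norm_num
    have e2 : (-1 - (1 : ℝ)) / 2 = -1 := by norm_num
    rw [e1, e2]
    simp only [mul_neg, mul_one, zero_add, sub_neg_eq_add, psi_neg]
    simpa using hU0
  · have e1 : (-1 + (-1 : ℝ)) / 2 = -1 := by norm_num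
    have e2 : (-1 - (-1 : ℝ)) / 2 = 0 := by norm_num
    rw [e1, e2]
    simp only [mul_zero, add_zero, sub_zero, psi_neg_one]
    simpa using hUm

/-- **Bellman induction**: a function `U` of the mean with a two-point supersolution property
bounds the average entropy of the noised function from below. -/
theorem bellman_bound {ρ t : ℝ} (hρ0 : 0 < ρ) (hρ1 : ρ < 1) (ht : Real.exp (-t) = ρ) (U : ℝ → ℝ)
    (hU1 : U 1 ≤ 0) (hUm : U (-1) ≤ 0) (hU0 : U 0 ≤ psi ρ)
    (hstep : ∀ A B : ℝ, 0 ≤ B → B ≤ 1 / 2 → |A| + B ≤ 1 → ∃ α β : ℝ, 0 ≤ α ∧ 0 < β ∧ β ≤ 1 ∧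
      (∀ s : ℝ, |s| ≤ 1 → α * s + β * psi s ≤ psi (ρ * s)) ∧
      U A ≤ α * B + β * ((U (A + B) + U (A - B)) / 2)) :
    ∀ (n : ℕ) (F : (Fin n → Bool) → ℝ), (∀ x, F x = 1 ∨ F x = -1) →
      U (avg F) ≤ avg (fun y => psi (UU F t y)) := by
  intro n
  induction n with
  | zero => exact fun F hF => base_zero U hU1 hUm F hF
  | succ n ih =>
    intro F hF
    cases n with
    | zero => exact base_one ht U hU1 hUm hU0 F hF
    | succ m =>
      obtain ⟨i, hi⟩ := exists_coord F hF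
      exact step_at_coord hρ0 hρ1 ht U hstep F hF i hi (ih _ (fun x => hF _)) (ih _ (fun x => hF _))

/-- **Theorem V**: for `0.9 ≤ ρ < 1`, `ρ = exp(-t)`, every Boolean `±1`-valued function satisfies
`E ψ(P_ρ f) ≥ ψ(ρ) (1 - (E f)^2)`. -/
theorem variance_bound {ρ t : ℝ} (hρ0 : 9 / 10 ≤ ρ) (hρ1 : ρ < 1) (ht : Real.exp (-t) = ρ) :
    ∀ (n : ℕ) (F : (Fin n → Bool) → ℝ), (∀ x, F x = 1 ∨ F x = -1) →
      psi ρ * (1 - (avg F) ^ 2) ≤ avg (fun y => psi (UU F t y)) := by
  have hρpos : 0 < ρ := by linarith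
  have hh0 : 0 ≤ psi ρ := psi_nonneg (by rw [abs_of_pos hρpos]; exact hρ1.le)
  refine bellman_bound hρpos hρ1 ht (fun m => psi ρ * (1 - m ^ 2)) (by simp) (by simp) (by simp) ?_
  intro A B hB0 hB1 _
  obtain ⟨α, β, hα, hβ0, hβ1, hcert, hU⟩ := ht_exists hρ0 hρ1 hB0 (by linarith)
  refine ⟨α, β, hα, hβ0, hβ1, hcert, ?_⟩
  have e : α * B + β * ((psi ρ * (1 - (A + B) ^ 2) + psi ρ * (1 - (A - B) ^ 2)) / 2)
      = (α * B + β * (psi ρ * (1 - B ^ 2))) - β * (psi ρ * A ^ 2) := by ring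
  simp only [e]
  have h1 : β * (psi ρ * A ^ 2) ≤ 1 * (psi ρ * A ^ 2) :=
    mul_le_mul_of_nonneg_right hβ1 (by positivity)
  linarith

end Vale.Agent.P322V
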