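import Mathlib

/-! Fixed-rho induction for Courtade-Kumar: basic functions.  psi z = h((1+z)/2) in nats. -/

namespace Vale.Agent.P322V

open Real

/-- `psi z = h((1+z)/2)`, binary entropy in nats of a bit with bias `z`. -/
noncomputable def psi (z : ℝ) : ℝ := Real.binEntropy ((1 + z) / 2)

/-- Inverse hyperbolic tangent, through logarithms. -/
noncomputable def ath (z : ℝ) : ℝ := (1 / 2) * Real.log ((1 + z) / (1 - z))

/-- `LL ξ = log (2 cosh ξ)`. -/
noncomputable def LL (ξ : ℝ) : ℝ := Real.log (2 * Real.cosh ξ)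

lemma psi_neg (z : ℝ) : psi (-z) = psi z := by
  unfold psi
  rw [← Real.binEntropy_one_sub]
  congr 1
  ring

lemma psi_one : psi 1 = 0 := by
  unfold psi
  norm_num

lemma psi_neg_one : psi (-1) = 0 := by
  unfold psi
  norm_num

lemma psi_zero : psi 0 = Real.log 2 := by
  unfold psi
  have e : ((1 : ℝ) + 0) / 2 = 2⁻¹ := by norm_num
  rw [e, Real.binEntropy_two_inv]

lemma psi_nonneg {z : ℝ} (hz : |z| ≤ 1) : 0 ≤ psi z := by
  have h := abs_le.1 hz
  exact Real.binEntropy_nonneg (by linarith [h.1]) (by linarith [h.2])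

lemma psi_le_log_two (z : ℝ) : psi z ≤ Real.log 2 := Real.binEntropy_le_log_two

lemma continuous_psi : Continuous psi := by
  unfold psi
  exact Real.binEntropy_continuous.comp (by fun_prop)

lemma ath_eq {z : ℝ} (hz : |z| < 1) :
    ath z = (1 / 2) * (Real.log (1 + z) - Real.log (1 - z)) := by
  have h := abs_lt.1 hz
  unfold ath
  rw [Real.log_div (by linarith [h.1]) (by linarith [h.2])]

lemma psi_eq_logs {z : ℝ} (hz : |z| < 1) :
    psi z = Real.log 2 - (1 + z) / 2 * Real.log (1 + z) - (1 - z) / 2 * Real.log (1 - z) := by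
  have h := abs_lt.1 hz
  have h1 : (1 + z) ≠ 0 := by linarith [h.1]
  have h2 : (1 - z) ≠ 0 := by linarith [h.2]
  unfold psi Real.binEntropy
  have e : 1 - (1 + z) / 2 = (1 - z) / 2 := by ring
  rw [e, Real.log_inv, Real.log_inv, Real.log_div h1 (by norm_num), Real.log_div h2 (by norm_num)]
  ring

lemma hasDerivAt_psi {z : ℝ} (hz : |z| < 1) : HasDerivAt psi (-(ath z)) z := by
  have h := abs_lt.1 hz
  have h1 : (1 + z) / 2 ≠ 0 := by
    have : 0 < (1 + z) / 2 := by linarith [h.1]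
    exact this.ne'
  have h2 : (1 + z) / 2 ≠ 1 := by
    intro e
    linarith [h.2]
  have hd := (Real.hasDerivAt_binEntropy h1 h2)
  have hin : HasDerivAt (fun w : ℝ => (1 + w) / 2) (1 / 2) z := by
    have := ((hasDerivAt_id z).const_add 1).div_const 2
    simpa using this
  have hc := hd.comp z hin
  have e : (Real.log (1 - (1 + z) / 2) - Real.log ((1 + z) / 2)) * (1 / 2) = -(ath z) := by
    rw [ath_eq hz]
    have e1 : 1 - (1 + z) / 2 = (1 - z) / 2 := by ring
    rw [e1, Real.log_div (by linarith [h.2]) (by norm_num),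
      Real.log_div (by linarith [h.1]) (by norm_num)]
    ring
  rw [e] at hc
  exact hc

lemma hasDerivAt_ath {z : ℝ} (hz : |z| < 1) : HasDerivAt ath (1 / (1 - z ^ 2)) z := by
  have h := abs_lt.1 hz
  have h1 : (1 + z) ≠ 0 := by linarith [h.1]
  have h2 : (1 - z) ≠ 0 := by linarith [h.2]
  have hq : HasDerivAt (fun w : ℝ => (1 + w) / (1 - w)) (((1 : ℝ) * (1 - z) - (1 + z) * (-1)) / (1 - z) ^ 2) z := by
    have a : HasDerivAt (fun w : ℝ => 1 + w) 1 z := by
      simpa using (hasDerivAt_id z).const_add 1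
    have b : HasDerivAt (fun w : ℝ => 1 - w) (-1) z := by
      simpa using (hasDerivAt_id z).const_sub 1
    exact a.div b h2
  have hq0 : (1 + z) / (1 - z) ≠ 0 := div_ne_zero h1 h2
  have hl := (hq.log hq0).const_mul (1 / 2 : ℝ)
  have e : (1 / 2 : ℝ) * ((((1 : ℝ) * (1 - z) - (1 + z) * (-1)) / (1 - z) ^ 2) / ((1 + z) / (1 - z))) =
      1 / (1 - z ^ 2) := by
    have h3 : 1 - z ^ 2 = (1 - z) * (1 + z) := by ring
    rw [h3]
    field_simp
    ring
  rw [e] at hl
  exact hl

/-- psi is concave on [-1,1]. -/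
lemma concaveOn_psi : ConcaveOn ℝ (Set.Icc (-1) 1) psi := by
  have hc := Real.strictConcave_binEntropy.concaveOn
  refine ⟨convex_Icc _ _, ?_⟩
  intro x hx y hy a b ha hb hab
  have hx' : (1 + x) / 2 ∈ Set.Icc (0 : ℝ) 1 := ⟨by linarith [hx.1], by linarith [hx.2]⟩
  have hy' : (1 + y) / 2 ∈ Set.Icc (0 : ℝ) 1 := ⟨by linarith [hy.1], by linarith [hy.2]⟩
  have := hc.2 hx' hy' ha hb hab
  unfold psi
  have e : (1 + (a • x + b • y)) / 2 = a • ((1 + x) / 2) + b • ((1 + y) / 2) := by
    simp only [smul_eq_mul]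
    have : b = 1 - a := by linarith
    subst this
    ring
  rw [e]
  exact this

/-- psi is antitone on [0,1]. -/
lemma psi_anti {a b : ℝ} (ha : 0 ≤ a) (hab : a ≤ b) (hb : b ≤ 1) : psi b ≤ psi a := by
  have h := Real.binEntropy_strictAntiOn.antitoneOn
  have ma : (1 + a) / 2 ∈ Set.Icc (2⁻¹ : ℝ) 1 := ⟨by linarith, by linarith⟩
  have mb : (1 + b) / 2 ∈ Set.Icc (2⁻¹ : ℝ) 1 := ⟨by linarith, by linarith⟩
  exact h ma mb (by linarith)

lemma exp_ath {z : ℝ} (hz : |z| < 1) : Real.exp (ath z) ^ 2 = (1 + z) / (1 - z) := by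
  have h := abs_lt.1 hz
  have hp : 0 < (1 + z) / (1 - z) := div_pos (by linarith [h.1]) (by linarith [h.2])
  rw [← Real.exp_nat_mul]
  unfold ath
  have : ((2 : ℕ) : ℝ) * ((1 / 2) * Real.log ((1 + z) / (1 - z))) = Real.log ((1 + z) / (1 - z)) := by
    push_cast
    ring
  rw [this, Real.exp_log hp]

lemma LL_ath {z : ℝ} (hz : |z| < 1) : LL (ath z) = Real.log 2 - (1 / 2) * Real.log (1 - z ^ 2) := by
  have h := abs_lt.1 hz
  have h1 : 0 < 1 + z := by linarith [h.1]
  have h2 : 0 < 1 - z := by linarith [h.2]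
  have h3 : 0 < 1 - z ^ 2 := by nlinarith
  set w := Real.exp (ath z) with hw
  have hw0 : 0 < w := Real.exp_pos _
  have hw2 : w ^ 2 = (1 + z) / (1 - z) := exp_ath hz
  have hc : 2 * Real.cosh (ath z) = w + w⁻¹ := by
    rw [Real.cosh_eq, Real.exp_neg]
    ring
  have hpos : 0 < w + w⁻¹ := by positivity
  have hsq : (w + w⁻¹) ^ 2 = 4 / (1 - z ^ 2) := by
    have e : (w + w⁻¹) ^ 2 = w ^ 2 + 2 + (w ^ 2)⁻¹ := by
      field_simp
      ring
    rw [e, hw2]
    have h4 : 1 - z ^ 2 = (1 - z) * (1 + z) := by ring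
    rw [h4]
    field_simp
    ring
  unfold LL
  rw [hc]
  have hlog : 2 * Real.log (w + w⁻¹) = Real.log 4 - Real.log (1 - z ^ 2) := by
    rw [← Real.log_div (by norm_num) h3.ne', ← hsq, Real.log_pow]
    norm_num
  have h44 : Real.log 4 = 2 * Real.log 2 := by
    have : (4 : ℝ) = 2 ^ 2 := by norm_num
    rw [this, Real.log_pow]
    norm_num
  linarith

/-- Exact Fenchel identity. -/
lemma psi_eq_LL {z : ℝ} (hz : |z| < 1) : psi z = LL (ath z) - ath z * z := by
  have h := abs_lt.1 hz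
  rw [LL_ath hz, psi_eq_logs hz, ath_eq hz]
  have h4 : 1 - z ^ 2 = (1 + z) * (1 - z) := by ring
  rw [h4, Real.log_mul (by linarith [h.1]) (by linarith [h.2])]
  ring

/-- A one-sided Gibbs bound for a single atom. -/
lemma negMulLog_add_mul_log_le {p a : ℝ} (hp : 0 ≤ p) (ha : 0 < a) :
    Real.negMulLog p + p * Real.log a ≤ a - p := by
  rcases hp.eq_or_lt with rfl | hp
  · simp
    exact ha.le
  · have h := Real.log_le_sub_one_of_pos (div_pos ha hp)
    rw [Real.log_div ha.ne' hp.ne'] at h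
    have h2 := mul_le_mul_of_nonneg_left h hp.le
    have e : p * (a / p - 1) = a - p := by
      field_simp
    rw [e] at h2
    unfold Real.negMulLog
    nlinarith

/-- Gibbs: `psi z ≤ LL ξ - ξ z` for all real `ξ`. -/
lemma psi_le_LL {z : ℝ} (hz : |z| ≤ 1) (ξ : ℝ) : psi z ≤ LL ξ - ξ * z := by
  have hb := abs_le.1 hz
  have hc : 0 < 2 * Real.cosh ξ := by positivity [Real.cosh_pos ξ]
  have hp : 0 ≤ (1 + z) / 2 := by linarith [hb.1]
  have hq : 0 ≤ (1 - z) / 2 := by linarith [hb.2]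
  have ha : 0 < Real.exp ξ / (2 * Real.cosh ξ) := div_pos (Real.exp_pos _) hc
  have ha' : 0 < Real.exp (-ξ) / (2 * Real.cosh ξ) := div_pos (Real.exp_pos _) hc
  have h1 := negMulLog_add_mul_log_le hp ha
  have h2 := negMulLog_add_mul_log_le hq ha'
  rw [Real.log_div (Real.exp_pos _).ne' hc.ne', Real.log_exp] at h1 h2
  have hsum : Real.exp ξ / (2 * Real.cosh ξ) + Real.exp (-ξ) / (2 * Real.cosh ξ) = 1 := by
    rw [← add_div, Real.cosh_eq]
    field_simp
  have hpsi : psi z = Real.negMulLog ((1 + z) / 2) + Real.negMulLog ((1 - z) / 2) := by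
    unfold psi
    rw [Real.binEntropy_eq_negMulLog_add_negMulLog_one_sub]
    congr 2
    ring
  rw [hpsi]
  unfold LL
  nlinarith

lemma abs_tanh_lt_one (ξ : ℝ) : |Real.tanh ξ| < 1 := Real.abs_tanh_lt_one ξ

lemma ath_tanh (ξ : ℝ) : ath (Real.tanh ξ) = ξ := by
  have hc := Real.cosh_pos ξ
  have e1 : 1 + Real.tanh ξ = Real.exp ξ / Real.cosh ξ := by
    rw [Real.tanh_eq_sinh_div_cosh, ← Real.cosh_add_sinh]
    field_simp
  have e2 : 1 - Real.tanh ξ = Real.exp (-ξ) / Real.cosh ξ := by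
    rw [Real.tanh_eq_sinh_div_cosh, ← Real.cosh_sub_sinh]
    field_simp
  unfold ath
  rw [e1, e2]
  have : Real.exp ξ / Real.cosh ξ / (Real.exp (-ξ) / Real.cosh ξ) = Real.exp (2 * ξ) := by
    rw [Real.exp_neg, two_mul, Real.exp_add]
    have := Real.exp_pos ξ
    field_simp
  rw [this, Real.log_exp]
  ring

/-- `ψ(x) = (1-x) ath x + log(2/(1+x)) ≥ (1-x)(ath x + 1/2)`. -/
lemma psi_ge {x : ℝ} (h0 : 0 ≤ x) (h1 : x < 1) : (1 - x) * (ath x + 1 / 2) ≤ psi x := by
  have hz : |x| < 1 := by rw [abs_of_nonneg h0]; exact h1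
  rw [psi_eq_logs hz, ath_eq hz]
  have hp : 0 < 2 / (1 + x) := by positivity
  have hl := Real.log_le_sub_one_of_pos (show 0 < (1 + x) / 2 by positivity)
  rw [Real.log_div (by positivity) (by norm_num)] at hl
  nlinarith

/-- The left-right Hermite-Hadamard bound for the convex function `ath` on `[(1-δ)x, x]`. -/
lemma psi_sub_ge {x δ : ℝ} (hx0 : 0 < x) (hx1 : x < 1) (hδ0 : 0 < δ) (hδ1 : δ ≤ 1) :
    x * δ * ath (x * (1 - δ / 2)) ≤ psi ((1 - δ) * x) - psi x := by
  set m := x * (1 - δ / 2) with hm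
  set T := x * δ / 2 with hT
  have hT0 : 0 < T := by positivity
  have hmT : T ≤ m := by
    rw [hm, hT]
    nlinarith
  have hup : m + T = x := by
    rw [hm, hT]; ring
  have hlo : m - T = (1 - δ) * x := by
    rw [hm, hT]; ring
  have hm1 : m < 1 := by linarith
  have hmem : ∀ t ∈ Set.Icc (0 : ℝ) T, |m + t| < 1 ∧ |m - t| < 1 := by
    intro t ht
    constructor
    · rw [abs_lt]; constructor <;> linarith [ht.1, ht.2]
    · rw [abs_lt]; constructor <;> linarith [ht.1, ht.2]
  -- v t = ath (m+t) + ath (m-t) is monotone on [0,T]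
  have hvd : ∀ t ∈ Set.Icc (0 : ℝ) T,
      HasDerivAt (fun s => ath (m + s) + ath (m - s))
        (1 / (1 - (m + t) ^ 2) - 1 / (1 - (m - t) ^ 2)) t := by
    intro t ht
    obtain ⟨h1, h2⟩ := hmem t ht
    have a1 : HasDerivAt (fun s => ath (m + s)) (1 / (1 - (m + t) ^ 2)) t := by
      have := (hasDerivAt_ath h1).comp_const_add m t
      exact this
    have a2 : HasDerivAt (fun s => ath (m - s)) (-(1 / (1 - (m - t) ^ 2))) t := by
      have := (hasDerivAt_ath h2).comp_const_sub m t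
      exact this
    have := a1.fun_add a2
    exact this.congr_deriv (by ring)
  have hvnn : ∀ t ∈ Set.Icc (0 : ℝ) T, 0 ≤ 1 / (1 - (m + t) ^ 2) - 1 / (1 - (m - t) ^ 2) := by
    intro t ht
    obtain ⟨h1, h2⟩ := hmem t ht
    have a1 := abs_lt.1 h1
    have a2 := abs_lt.1 h2
    have p1 : 0 < 1 - (m + t) ^ 2 := by nlinarith
    have p2 : 0 < 1 - (m - t) ^ 2 := by nlinarith
    have hle : 1 - (m + t) ^ 2 ≤ 1 - (m - t) ^ 2 := by
      have : 0 ≤ m := by linarith
      nlinarith [ht.1, mul_nonneg this ht.1]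
    have := one_div_le_one_div_of_le p1 hle
    linarith
  have hvmono : MonotoneOn (fun s => ath (m + s) + ath (m - s)) (Set.Icc 0 T) := by
    apply monotoneOn_of_deriv_nonneg (convex_Icc _ _)
    · intro t ht
      exact (hvd t ht).continuousAt.continuousWithinAt
    · intro t ht
      exact (hvd t (interior_subset ht)).differentiableAt.differentiableWithinAt
    · intro t ht
      rw [(hvd t (interior_subset ht)).deriv]
      exact hvnn t (interior_subset ht)
  have hgd : ∀ t ∈ Set.Icc (0 : ℝ) T,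
      HasDerivAt (fun s => psi (m - s) - psi (m + s) - 2 * s * ath m)
        (ath (m - t) + ath (m + t) - 2 * ath m) t := by
    intro t ht
    obtain ⟨h1, h2⟩ := hmem t ht
    have a1 : HasDerivAt (fun s => psi (m - s)) (-(-(ath (m - t)))) t := by
      exact (hasDerivAt_psi h2).comp_const_sub m t
    have a2 : HasDerivAt (fun s => psi (m + s)) (-(ath (m + t))) t := by
      exact (hasDerivAt_psi h1).comp_const_add m t
    have a3 : HasDerivAt (fun s : ℝ => 2 * s * ath m) (2 * ath m) t := by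
      have := ((hasDerivAt_id t).const_mul (2 : ℝ)).mul_const (ath m)
      simpa using this
    have := (a1.fun_sub a2).fun_sub a3
    exact this.congr_deriv (by ring)
  have hgmono : MonotoneOn (fun s => psi (m - s) - psi (m + s) - 2 * s * ath m) (Set.Icc 0 T) := by
    apply monotoneOn_of_deriv_nonneg (convex_Icc _ _)
    · intro t ht
      exact (hgd t ht).continuousAt.continuousWithinAt
    · intro t ht
      exact (hgd t (interior_subset ht)).differentiableAt.differentiableWithinAt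
    · intro t ht
      rw [(hgd t (interior_subset ht)).deriv]
      have ht' := interior_subset ht
      have := hvmono (Set.left_mem_Icc.2 hT0.le) ht' ht'.1
      simp only [add_zero, sub_zero] at this
      linarith
  have := hgmono (Set.left_mem_Icc.2 hT0.le) (Set.right_mem_Icc.2 hT0.le) hT0.le
  simp only [add_zero, sub_zero, mul_zero, zero_mul, sub_self] at this
  rw [hlo, hup] at this
  have e : x * δ * ath m = 2 * T * ath m := by
    rw [hT]; ring
  rw [e]
  linarith

end Vale.Agent.P322V
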