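import Vale.Agent.P322V.Defs

namespace Vale.Agent.P322V

open Real

/-- Dual form of a certificate. -/
lemma cert_dual {ρ α β : ℝ} (hρ0 : 0 < ρ) (hρ1 : ρ < 1) (hβ0 : 0 < β) (_hβ1 : β ≤ 1)
    (hcert : ∀ s : ℝ, |s| ≤ 1 → α * s + β * psi s ≤ psi (ρ * s)) (τ : ℝ) :
    β * LL ((ρ * τ + α) / β) ≤ LL τ := by
  set ξ := (ρ * τ + α) / β with hξ
  set s := Real.tanh ξ with hs
  have hs1 : |s| < 1 := abs_tanh_lt_one ξ
  have hath : ath s = ξ := ath_tanh ξ
  have h1 : psi s = LL ξ - ξ * s := by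
    have := psi_eq_LL hs1
    rwa [hath] at this
  have h2 := hcert s hs1.le
  have h3 : |ρ * s| ≤ 1 := by
    rw [abs_mul, abs_of_pos hρ0]
    nlinarith [abs_nonneg s]
  have h4 := psi_le_LL h3 τ
  have h5 : β * ξ = ρ * τ + α := by
    rw [hξ]; field_simp
  have h6 : β * LL ξ = β * psi s + (ρ * τ + α) * s := by
    rw [h1, ← h5]; ring
  rw [h6]
  nlinarith

/-- The pointwise inequality `sinh (q z) ≤ (2 cosh z)^(q-1) sinh z`. -/
lemma sinh_key {q z : ℝ} (hq : 2 ≤ q) (hz : 0 ≤ z) :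
    Real.sinh (q * z) ≤ (2 * Real.cosh z) ^ (q - 1) * Real.sinh z := by
  set r := Real.exp (-(2 * z)) with hr
  have hr0 : 0 < r := Real.exp_pos _
  have hr1 : r ≤ 1 := Real.exp_le_one_iff.mpr (by linarith)
  set e := Real.exp z with he
  have he0 : 0 < e := Real.exp_pos _
  have hc : 2 * Real.cosh z = e * (1 + r) := by
    have : Real.exp z * Real.exp (-(2 * z)) = Real.exp (-z) := by
      rw [← Real.exp_add]; ring_nf
    rw [Real.cosh_eq, hr, he]
    nlinarith
  have hsh : 2 * Real.sinh z = e * (1 - r) := by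
    have : Real.exp z * Real.exp (-(2 * z)) = Real.exp (-z) := by
      rw [← Real.exp_add]; ring_nf
    rw [Real.sinh_eq, hr, he]
    nlinarith
  have hrq : r ^ q = Real.exp (-(2 * z) * q) := by
    rw [hr, ← Real.exp_mul]
  have hr_q1 : r ^ q = r * r ^ (q - 1) := by
    have : r ^ q = r ^ ((1 : ℝ) + (q - 1)) := by ring_nf
    rw [this, Real.rpow_add hr0, Real.rpow_one]
  have hshq : 2 * Real.sinh (q * z) = Real.exp (q * z) * (1 - r ^ q) := by
    have : Real.exp (q * z) * Real.exp (-(2 * z) * q) = Real.exp (-(q * z)) := by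
      rw [← Real.exp_add]; ring_nf
    rw [Real.sinh_eq, hrq]
    nlinarith
  have hpow : (2 * Real.cosh z) ^ (q - 1) = Real.exp ((q - 1) * z) * (1 + r) ^ (q - 1) := by
    rw [hc, Real.mul_rpow he0.le (by linarith)]
    congr 1
    rw [he, ← Real.exp_mul]
    ring_nf
  have hee : Real.exp ((q - 1) * z) * e = Real.exp (q * z) := by
    rw [he, ← Real.exp_add]; ring_nf
  -- Bernoulli
  have hB1 : 1 + (q - 1) * r ≤ (1 + r) ^ (q - 1) :=
    one_add_mul_self_le_rpow_one_add (by linarith) (by linarith)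
  have hB2 : 1 + (q - 1) * (r - 1) ≤ r ^ (q - 1) := by
    have := one_add_mul_self_le_rpow_one_add (s := r - 1) (by linarith) (p := q - 1) (by linarith)
    simpa using this
  have hkey : 1 - r ^ q ≤ (1 + r) ^ (q - 1) * (1 - r) := by
    have h1 : (1 + (q - 1) * r) * (1 - r) ≤ (1 + r) ^ (q - 1) * (1 - r) :=
      mul_le_mul_of_nonneg_right hB1 (by linarith)
    have h2 : r * (1 + (q - 1) * (r - 1)) ≤ r * r ^ (q - 1) :=
      mul_le_mul_of_nonneg_left hB2 hr0.le
    rw [hr_q1]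
    nlinarith
  have hexp := Real.exp_pos (q * z)
  have hfinal : Real.exp (q * z) * (1 - r ^ q) ≤ Real.exp (q * z) * ((1 + r) ^ (q - 1) * (1 - r)) :=
    mul_le_mul_of_nonneg_left hkey hexp.le
  have e2 : (2 * Real.cosh z) ^ (q - 1) * (2 * Real.sinh z)
      = Real.exp (q * z) * ((1 + r) ^ (q - 1) * (1 - r)) := by
    rw [hpow, hsh, ← hee]; ring
  have e3 : 2 * Real.sinh (q * z) ≤ (2 * Real.cosh z) ^ (q - 1) * (2 * Real.sinh z) := by
    rw [hshq, e2]; exact hfinal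
  linarith

/-- The real-power inequality: `(2 cosh z)^q - 2^q ≥ 2 cosh (q z) - 2`, `q ≥ 2`. -/
lemma cosh_rpow_ineq {q : ℝ} (hq : 2 ≤ q) (z : ℝ) :
    2 * Real.cosh (q * z) - 2 ≤ (2 * Real.cosh z) ^ q - 2 ^ q := by
  -- reduce to `z ≥ 0`
  suffices H : ∀ z : ℝ, 0 ≤ z → 2 * Real.cosh (q * z) - 2 ≤ (2 * Real.cosh z) ^ q - 2 ^ q by
    rcases le_total 0 z with h | h
    · exact H z h
    · have := H (-z) (by linarith)
      rwa [Real.cosh_neg, mul_neg, Real.cosh_neg] at this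
  intro z hz
  set W : ℝ → ℝ := fun z => (2 * Real.cosh z) ^ q - 2 * Real.cosh (q * z) with hW
  have hpos : ∀ z : ℝ, 0 < 2 * Real.cosh z := fun z => by positivity
  have hder : ∀ x : ℝ, HasDerivAt W
      ((2 * Real.sinh x) * q * (2 * Real.cosh x) ^ (q - 1) - 2 * (Real.sinh (q * x) * q)) x := by
    intro x
    have h1 : HasDerivAt (fun x => 2 * Real.cosh x) (2 * Real.sinh x) x :=
      (Real.hasDerivAt_cosh x).const_mul 2
    have h2 := h1.rpow_const (p := q) (Or.inl (hpos x).ne')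
    have h3 : HasDerivAt (fun x => q * x) q x := by
      simpa using (hasDerivAt_id x).const_mul q
    have h4 : HasDerivAt (fun x => Real.cosh (q * x)) (Real.sinh (q * x) * q) x :=
      (Real.hasDerivAt_cosh (q * x)).comp x h3
    exact h2.sub (h4.const_mul 2)
  have hmono : MonotoneOn W (Set.Ici 0) := by
    apply monotoneOn_of_deriv_nonneg (convex_Ici 0)
    · exact fun x _ => (hder x).continuousAt.continuousWithinAt
    · exact fun x _ => (hder x).differentiableAt.differentiableWithinAt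
    · intro x hx
      rw [interior_Ici] at hx
      rw [(hder x).deriv]
      have h := sinh_key hq (le_of_lt hx)
      have hq0 : 0 < q := by linarith
      nlinarith
  have h0 := hmono (Set.mem_Ici.mpr le_rfl) (Set.mem_Ici.mpr hz) hz
  simp only [hW, mul_zero, Real.cosh_zero, mul_one] at h0
  linarith

/-- Increasing differences of `t ↦ t^κ`. -/
lemma rpow_incr_diff {κ p t : ℝ} (hκ : 1 ≤ κ) (hp : 0 ≤ p) (ht : 4 ≤ t) :
    (4 + p) ^ κ - 4 ^ κ ≤ (t + p) ^ κ - t ^ κ := by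
  rcases (by linarith : 0 ≤ t + p - 4).eq_or_lt with hD | hD
  · have hp0 : p = 0 := by linarith
    have ht0 : t = 4 := by linarith
    rw [hp0, ht0]
  have hconv := convexOn_rpow hκ
  set D := t + p - 4 with hDdef
  have ha : (4 : ℝ) ∈ Set.Ici (0 : ℝ) := by simp
  have hd : t + p ∈ Set.Ici (0 : ℝ) := Set.mem_Ici.mpr (by linarith)
  have hl : 0 ≤ (t - 4) / D := div_nonneg (by linarith) hD.le
  have hm : 0 ≤ p / D := div_nonneg hp hD.le
  have hsum : (t - 4) / D + p / D = 1 := by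
    rw [← add_div, div_eq_one_iff_eq hD.ne']; rw [hDdef]; ring
  have h1 := hconv.2 ha hd hl hm hsum
  have h2 := hconv.2 ha hd hm hl (by rw [add_comm]; exact hsum)
  have e1 : ((t - 4) / D) • (4 : ℝ) + (p / D) • (t + p) = 4 + p := by
    simp only [smul_eq_mul]
    field_simp
    rw [hDdef]; ring
  have e2 : (p / D) • (4 : ℝ) + ((t - 4) / D) • (t + p) = t := by
    simp only [smul_eq_mul]
    field_simp
    rw [hDdef]; ring
  rw [e1] at h1
  rw [e2] at h2
  simp only [smul_eq_mul] at h1 h2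
  have h3 : (t - 4) / D * 4 ^ κ + p / D * (t + p) ^ κ + (p / D * 4 ^ κ + (t - 4) / D * (t + p) ^ κ)
      = ((t - 4) / D + p / D) * 4 ^ κ + ((t - 4) / D + p / D) * (t + p) ^ κ := by ring
  rw [hsum] at h3
  linarith

lemma LL_add (a b : ℝ) :
    LL a + LL b = Real.log (2 * Real.cosh (a + b) + 2 * Real.cosh (a - b)) := by
  unfold LL
  rw [← Real.log_mul (by positivity) (by positivity), Real.cosh_add, Real.cosh_sub]
  congr 1
  ring

/-- The key two-variable inequality (φ). -/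
lemma phi_ineq {ρ α β : ℝ} (hρ0 : 0 < ρ) (hρ1 : ρ < 1) (hβ0 : 0 < β) (hβ1 : β ≤ 1)
    (hcert : ∀ s : ℝ, |s| ≤ 1 → α * s + β * psi s ≤ psi (ρ * s)) (σ τ : ℝ) :
    β * (LL ((σ + ρ * τ + α) / β) + LL ((σ - ρ * τ - α) / β)) ≤ LL (σ + τ) + LL (σ - τ) := by
  set κ := 1 / β with hκ
  have hκ1 : 1 ≤ κ := by
    rw [hκ, le_div_iff₀ hβ0]; linarith
  have hκβ : β * κ = 1 := by rw [hκ]; field_simp
  set X := 2 + 2 * Real.cosh (2 * τ) with hX
  set Y := 2 + 2 * Real.cosh (2 * ((ρ * τ + α) / β)) with hY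
  set p := 2 * Real.cosh (2 * σ) - 2 with hp
  set q0 := 2 * Real.cosh (2 * κ * σ) - 2 with hq0
  have hX4 : 4 ≤ X := by rw [hX]; linarith [Real.one_le_cosh (2 * τ)]
  have hY4 : 4 ≤ Y := by rw [hY]; linarith [Real.one_le_cosh (2 * ((ρ * τ + α) / β))]
  have hp0 : 0 ≤ p := by rw [hp]; linarith [Real.one_le_cosh (2 * σ)]
  have hq00 : 0 ≤ q0 := by rw [hq0]; linarith [Real.one_le_cosh (2 * κ * σ)]
  -- (1)
  have h1 : β * Real.log Y ≤ Real.log X := by
    have hd := cert_dual hρ0 hρ1 hβ0 hβ1 hcert τ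
    have e1 : Real.log X = LL τ + LL τ := by
      rw [LL_add, hX]; congr 1
      have : τ + τ = 2 * τ := by ring
      rw [this]; simp; ring
    have e2 : Real.log Y = LL ((ρ * τ + α) / β) + LL ((ρ * τ + α) / β) := by
      rw [LL_add, hY]; congr 1
      have : (ρ * τ + α) / β + (ρ * τ + α) / β = 2 * ((ρ * τ + α) / β) := by ring
      rw [this]; simp; ring
    rw [e1, e2]
    linarith
  have hXpos : 0 < X := by linarith
  have hYpos : 0 < Y := by linarith
  have h2 : Y ≤ X ^ κ := by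
    have h3 : Real.log Y ≤ Real.log (X ^ κ) := by
      rw [Real.log_rpow hXpos]
      have : κ * (β * Real.log Y) ≤ κ * Real.log X :=
        mul_le_mul_of_nonneg_left h1 (by linarith)
      have e : κ * (β * Real.log Y) = (β * κ) * Real.log Y := by ring
      rw [e, hκβ, one_mul] at this
      exact this
    exact (Real.log_le_log_iff hYpos (by positivity)).mp h3
  have h3 := rpow_incr_diff (t := X) hκ1 hp0 hX4
  -- the cosh inequality with `q = 2 κ`
  have h4 : q0 ≤ (4 + p) ^ κ - 4 ^ κ := by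
    have h5 := cosh_rpow_ineq (q := 2 * κ) (by linarith) σ
    have e1 : 4 + p = (2 * Real.cosh σ) ^ (2 : ℕ) := by
      rw [hp, Real.cosh_two_mul]
      have := Real.cosh_sq σ
      nlinarith
    have e2 : (2 * Real.cosh σ) ^ (2 * κ) = (4 + p) ^ κ := by
      rw [e1, ← Real.rpow_natCast, ← Real.rpow_mul (by positivity)]
      norm_num
    have e3 : (2 : ℝ) ^ (2 * κ) = 4 ^ κ := by
      rw [Real.rpow_mul (by norm_num)]
      norm_num
    rw [e2, e3] at h5
    exact h5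
  have h5 : Y + q0 ≤ (X + p) ^ κ := by linarith
  -- finish
  have e1 : LL (σ + τ) + LL (σ - τ) = Real.log (X + p) := by
    rw [LL_add]; congr 1
    have a1 : σ + τ + (σ - τ) = 2 * σ := by ring
    have a2 : σ + τ - (σ - τ) = 2 * τ := by ring
    rw [a1, a2, hX, hp]; ring
  have e2 : LL ((σ + ρ * τ + α) / β) + LL ((σ - ρ * τ - α) / β) = Real.log (Y + q0) := by
    rw [LL_add]; congr 1
    have a1 : (σ + ρ * τ + α) / β + (σ - ρ * τ - α) / β = 2 * κ * σ := by
      rw [hκ]; field_simp; ring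
    have a2 : (σ + ρ * τ + α) / β - (σ - ρ * τ - α) / β = 2 * ((ρ * τ + α) / β) := by
      field_simp; ring
    rw [a1, a2, hY, hq0]; ring
  rw [e1, e2]
  have h6 : Real.log (Y + q0) ≤ κ * Real.log (X + p) := by
    have := Real.log_le_log (by linarith) h5
    rwa [Real.log_rpow (by linarith)] at this
  have h7 : β * Real.log (Y + q0) ≤ β * (κ * Real.log (X + p)) :=
    mul_le_mul_of_nonneg_left h6 hβ0.le
  have e3 : β * (κ * Real.log (X + p)) = (β * κ) * Real.log (X + p) := by ring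
  rw [e3, hκβ, one_mul] at h7
  exact h7

lemma edge_aux {ρ s t : ℝ} (hρ0 : 0 < ρ) (hρ1 : ρ < 1) (hs : |s| ≤ 1) (ht : |t| ≤ 1)
    (h : ¬ |(1 + ρ) / 2 * s + (1 - ρ) / 2 * t| < 1) : (s = 1 ∧ t = 1) ∨ (s = -1 ∧ t = -1) := by
  rw [abs_le] at hs ht
  obtain ⟨hs1, hs2⟩ := hs
  obtain ⟨ht1, ht2⟩ := ht
  rw [not_lt, le_abs] at h
  rcases h with h | h
  · left
    have h1 : 0 ≤ (1 + ρ) * (1 - s) := mul_nonneg (by linarith) (by linarith)
    have h2 : 0 ≤ (1 - ρ) * (1 - t) := mul_nonneg (by linarith) (by linarith)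
    have h3 : (1 + ρ) * (1 - s) + (1 - ρ) * (1 - t) ≤ 0 := by nlinarith
    have h4 : (1 + ρ) * (1 - s) = 0 := by linarith
    have h5 : (1 - ρ) * (1 - t) = 0 := by linarith
    constructor
    · have := (mul_eq_zero.mp h4).resolve_left (by linarith)
      linarith
    · have := (mul_eq_zero.mp h5).resolve_left (by linarith)
      linarith
  · right
    have h1 : 0 ≤ (1 + ρ) * (1 + s) := mul_nonneg (by linarith) (by linarith)
    have h2 : 0 ≤ (1 - ρ) * (1 + t) := mul_nonneg (by linarith) (by linarith)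
    have h3 : (1 + ρ) * (1 + s) + (1 - ρ) * (1 + t) ≤ 0 := by nlinarith
    have h4 : (1 + ρ) * (1 + s) = 0 := by linarith
    have h5 : (1 - ρ) * (1 + t) = 0 := by linarith
    constructor
    · have := (mul_eq_zero.mp h4).resolve_left (by linarith)
      linarith
    · have := (mul_eq_zero.mp h5).resolve_left (by linarith)
      linarith

/-- **Lemma A**: a two-point certificate tensorizes to an antipodal pair. -/
theorem two_point {ρ α β : ℝ} (hρ0 : 0 < ρ) (hρ1 : ρ < 1) (hβ0 : 0 < β) (hβ1 : β ≤ 1)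
    (hcert : ∀ s : ℝ, |s| ≤ 1 → α * s + β * psi s ≤ psi (ρ * s))
    {s t : ℝ} (hs : |s| ≤ 1) (ht : |t| ≤ 1) :
    α * ((s - t) / 2) + β * ((psi s + psi t) / 2) ≤
      (psi ((s + t) / 2 + ρ * ((s - t) / 2)) + psi ((s + t) / 2 - ρ * ((s - t) / 2))) / 2 := by
  set u := (s + t) / 2 + ρ * ((s - t) / 2) with hu
  set w := (s + t) / 2 - ρ * ((s - t) / 2) with hw
  have eu : u = (1 + ρ) / 2 * s + (1 - ρ) / 2 * t := by rw [hu]; ring
  have ew : w = (1 + ρ) / 2 * t + (1 - ρ) / 2 * s := by rw [hw]; ring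
  have hedge : ∀ a : ℝ, (a = 1 ∨ a = -1) → psi a = 0 := by
    rintro a (rfl | rfl)
    · exact psi_one
    · exact psi_neg_one
  by_cases h1 : |u| < 1
  swap
  · rw [eu] at h1
    rcases edge_aux hρ0 hρ1 hs ht h1 with ⟨rfl, rfl⟩ | ⟨rfl, rfl⟩
    · simp [hu, hw, psi_one]
    · simp only [hu, hw]
      norm_num [psi_neg_one]
  by_cases h2 : |w| < 1
  swap
  · rw [ew] at h2
    rcases edge_aux hρ0 hρ1 ht hs h2 with ⟨rfl, rfl⟩ | ⟨rfl, rfl⟩
    · simp [hu, hw, psi_one]
    · simp only [hu, hw]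
      norm_num [psi_neg_one]
  set σ := (ath u + ath w) / 2 with hσ
  set τ := (ath u - ath w) / 2 with hτ
  have hau : ath u = σ + τ := by rw [hσ, hτ]; ring
  have haw : ath w = σ - τ := by rw [hσ, hτ]; ring
  have hpu := psi_eq_LL h1
  have hpw := psi_eq_LL h2
  rw [hau] at hpu
  rw [haw] at hpw
  have hφ := phi_ineq hρ0 hρ1 hβ0 hβ1 hcert σ τ
  set ξ1 := (σ + ρ * τ + α) / β with hξ1
  set ξ2 := (σ - ρ * τ - α) / β with hξ2
  have hg1 := psi_le_LL hs ξ1
  have hg2 := psi_le_LL ht ξ2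
  have hb1 : β * ξ1 = σ + ρ * τ + α := by rw [hξ1]; field_simp
  have hb2 : β * ξ2 = σ - ρ * τ - α := by rw [hξ2]; field_simp
  have h3 : β * psi s ≤ β * (LL ξ1 - ξ1 * s) := mul_le_mul_of_nonneg_left hg1 hβ0.le
  have h4 : β * psi t ≤ β * (LL ξ2 - ξ2 * t) := mul_le_mul_of_nonneg_left hg2 hβ0.le
  have e3 : β * (LL ξ1 - ξ1 * s) = β * LL ξ1 - (σ + ρ * τ + α) * s := by rw [← hb1]; ring
  have e4 : β * (LL ξ2 - ξ2 * t) = β * LL ξ2 - (σ - ρ * τ - α) * t := by rw [← hb2]; ring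
  rw [e3] at h3
  rw [e4] at h4
  rw [hpu, hpw, hu, hw]
  nlinarith

end Vale.Agent.P322V
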